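import Mathlib
import Vale.Agent.P196.Schreier

/-!
P192: a finitely presented group with a large Schreier graph of small linear growth virtually
maps onto `ℤ`.  Two windows with equal patterns are glued; the cyclic covering of the glued
graph carries an action of the group and a winding number.
-/

namespace Vale.Agent.P192

open Subgroup Vale.Agent.P196

universe w

/-- a subgroup of finite index has a nontrivial homomorphism to the integers -/
def VirtIndicable (G : Type*) [Group G] : Prop :=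
  ∃ H : Subgroup G, H.FiniteIndex ∧ ∃ χ : H →* Multiplicative ℤ, χ ≠ 1

theorem not_virtIndicable_of_isTorsion {G : Type*} [Group G] (hG : IsMulTorsion G) :
    ¬VirtIndicable G := by
  rintro ⟨H, -, χ, hχ⟩
  apply hχ
  refine MonoidHom.ext fun g => ?_
  have h1 : IsOfFinOrder g := Submonoid.isOfFinOrder_coe.1 (hG (g : G))
  have h2 : IsOfFinOrder (χ g) := MonoidHom.isOfFinOrder χ h1
  by_contra h3
  exact not_isOfFinOrder_of_isMulTorsionFree h3 h2

/-- an action on `M × ℤ` commuting with the shift and winding at one point gives an indicable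
subgroup of finite index -/
theorem virtIndicable_of_winding {G : Type*} [Group G] {M : Type w} [Finite M]
    (F : G →* Equiv.Perm (M × ℤ))
    (hs : ∀ g y i m, F g (y, i + m) = ((F g (y, i)).1, (F g (y, i)).2 + m))
    (hw : ∃ g y, (F g (y, 0)).1 = y ∧ (F g (y, 0)).2 ≠ 0) : VirtIndicable G := by
  classical
  obtain ⟨g₀, y₀, hg₀, hg₀'⟩ := hw
  have comp : ∀ g₁ g₂ : G, ∀ y, F (g₁ * g₂) (y, 0) =
      ((F g₁ ((F g₂ (y, 0)).1, 0)).1,
        (F g₁ ((F g₂ (y, 0)).1, 0)).2 + (F g₂ (y, 0)).2) := by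
    intro g₁ g₂ y
    rw [map_mul, Equiv.Perm.mul_apply]
    conv_lhs => rw [← Prod.mk.eta (p := F g₂ (y, 0)), ← zero_add (F g₂ (y, 0)).2, hs]
  let A : MulAction G M :=
    { smul := fun g y => (F g (y, 0)).1
      one_smul := fun y => by change (F 1 (y, 0)).1 = y; simp
      mul_smul := fun g₁ g₂ y => by
        change (F (g₁ * g₂) (y, 0)).1 = (F g₁ ((F g₂ (y, 0)).1, 0)).1
        rw [comp] }
  let H : Subgroup G := MulAction.stabilizer G y₀
  have hH : ∀ g : H, (F (g : G) (y₀, 0)).1 = y₀ := fun g => g.2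
  refine ⟨H, ?_, MonoidHom.mk' (fun g => Multiplicative.ofAdd (F (g : G) (y₀, 0)).2) ?_, ?_⟩
  · haveI : Finite (G ⧸ H) :=
      Finite.of_equiv _ (MulAction.orbitEquivQuotientStabilizer G y₀)
    exact Subgroup.finiteIndex_of_finite_quotient
  · intro g₁ g₂
    rw [Subgroup.coe_mul, comp, hH g₂, ← ofAdd_add]
  · intro e
    have := DFunLike.congr_fun e (⟨g₀, hg₀⟩ : H)
    rw [MonoidHom.one_apply] at this
    exact hg₀' (Multiplicative.ofAdd.injective this)

section Cover

variable {G : Type*} [Group G] {Ω : Type w} [MulAction G Ω] {k : ℕ} {a : Fin k → G}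
variable {O : Set Ω} {h : Ω → ℕ} {c L d : ℕ} {φ ψ : Ω → Ω}

/-- which neighbouring copy of the strip a point of the extended strip lies in -/
def sheet (h : Ω → ℕ) (c d : ℕ) (z : Ω) : ℤ :=
  if h z ≤ c then -1 else if c + d < h z then 1 else 0

theorem sheet_mid {h : Ω → ℕ} {c d : ℕ} {z : Ω} (h1 : c < h z) (h2 : h z ≤ c + d) :
    sheet h c d z = 0 := by
  rw [sheet, if_neg (by omega), if_neg (by omega)]

theorem sheet_step (hm : Match a O h c L d φ ψ) (hd : 2 * L < d)
    (hO : ∀ g : G, ∀ y ∈ O, g • y ∈ O)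
    (hlip : ∀ g, IsGen a g → ∀ y ∈ O, h (g • y) ≤ h y + 1 ∧ h y ≤ h (g • y) + 1)
    {g : G} (hg : IsGen a g) {y : Ω} (hy : y ∈ O) {r : ℕ} (hr : r + 1 ≤ L)
    (h1 : c < h y + r) (h2 : h y ≤ c + d + r) :
    sheet h c d y + sheet h c d (g • fold h c d φ ψ y) = sheet h c d (g • y) := by
  obtain ⟨l1, l2⟩ := hlip g hg y hy
  rcases le_or_gt (h y) c with hc | hc
  · obtain ⟨u1, u2, u3⟩ := hm.hφ (g • y) (hO g y hy) (by omega) (by omega)
    rw [show fold h c d φ ψ y = φ y from if_pos hc,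
      ← hm.cφ g hg y hy (by omega) (by omega) (by omega) (by omega)]
    simp only [sheet, u2]
    split_ifs <;> omega
  rcases le_or_gt (h y) (c + d) with hd' | hd'
  · rw [fold_mid hc hd', sheet_mid hc hd', zero_add]
  · obtain ⟨u1, u2, u3⟩ := hm.hψ (g • y) (hO g y hy) (by omega) (by omega)
    rw [show fold h c d φ ψ y = ψ y by rw [fold, if_neg (by omega), if_pos hd'],
      ← hm.cψ g hg y hy (by omega) (by omega) (by omega) (by omega)]
    simp only [sheet]
    split_ifs <;> omega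

/-- from two matched windows, an action on the cyclic cover, killing all relators of length
at most `ℓ`, with a nonzero winding number -/
theorem winding (hm : Match a O h c L d φ ψ) (hd : 2 * L + 3 < d)
    (hO : ∀ g : G, ∀ y ∈ O, g • y ∈ O)
    (hlip : ∀ g, IsGen a g → ∀ y ∈ O, h (g • y) ≤ h y + 1 ∧ h y ≤ h (g • y) + 1)
    (hdown : ∀ y ∈ O, 0 < h y → ∃ g, IsGen a g ∧ h (g • y) + 1 = h y)
    (hfin : {y | y ∈ O ∧ h y ≤ c + d}.Finite) (ℓ : ℕ) (hL : ℓ + 2 ≤ L)
    (R : Set (FreeGroup (Fin k)))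
    (hR : ∀ r ∈ R, r.toWord.length ≤ ℓ ∧ FreeGroup.lift a r = 1)
    (hpt : ∃ y ∈ O, h y = c + 1) :
    ∃ (M : Type w) (_ : Finite M) (F : FreeGroup (Fin k) →* Equiv.Perm (M × ℤ)),
      (∀ r ∈ R, F r = 1) ∧
      (∀ g y i m, F g (y, i + m) = ((F g (y, i)).1, (F g (y, i)).2 + m)) ∧
      ∃ g y, (F g (y, 0)).1 = y ∧ (F g (y, 0)).2 ≠ 0 := by
  let M := {y : Ω // y ∈ O ∧ c < h y ∧ h y ≤ c + d}
  have hfinM : Finite M := (hfin.subset fun y hy => ⟨hy.1, hy.2.2⟩).to_subtype
  have act : ∀ g, IsGen a g → ∀ y : M, fold h c d φ ψ (g • y.1) ∈ O ∧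
      c < h (fold h c d φ ψ (g • y.1)) ∧ h (fold h c d φ ψ (g • y.1)) ≤ c + d := by
    rintro g hg ⟨y, hy, h1, h2⟩
    obtain ⟨l1, l2⟩ := hlip g hg y hy
    dsimp only
    exact fold_mem hm (by omega) (hO g y hy) (by omega) (by omega)
  have inv : ∀ g, IsGen a g → IsGen a g⁻¹ := by
    rintro g ⟨s, rfl | rfl⟩
    exacts [⟨s, .inr rfl⟩, ⟨s, .inl (inv_inv _)⟩]
  -- the motion of a generator on the cover
  let mv : ∀ g, IsGen a g → M × ℤ → M × ℤ := fun g hg p =>
    (⟨_, act g hg p.1⟩, p.2 + sheet h c d (g • p.1.1))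
  have cancel : ∀ g g', ∀ hg : IsGen a g, ∀ hg' : IsGen a g', g' * g = 1 →
      ∀ p : M × ℤ, mv g' hg' (mv g hg p) = p := by
    rintro g g' hg hg' e ⟨⟨y, hy, h1, h2⟩, i⟩
    obtain ⟨l1, l2⟩ := hlip g hg y hy
    have e1 := fold_step (T := 1) hm (by omega) hO hlip hg' (hO g y hy) (r := 1) (by omega)
      (by omega) (by omega)
    have e2 := sheet_step hm (by omega) hO hlip hg' (hO g y hy) (r := 1) (by omega)
      (by omega) (by omega)
    rw [← mul_smul g', e, one_smul] at e1 e2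
    rw [sheet_mid h1 h2] at e2
    refine Prod.ext (Subtype.ext ?_) ?_
    · change fold h c d φ ψ (g' • fold h c d φ ψ (g • y)) = y
      rw [e1, fold_mid h1 h2]
    · change i + sheet h c d (g • y) + sheet h c d (g' • fold h c d φ ψ (g • y)) = i
      omega
  let σ : Fin k → Equiv.Perm (M × ℤ) := fun s =>
    { toFun := mv (a s) ⟨s, .inl rfl⟩
      invFun := mv (a s)⁻¹ ⟨s, .inr rfl⟩
      left_inv := cancel (a s) (a s)⁻¹ ⟨s, .inl rfl⟩ ⟨s, .inr rfl⟩ (inv_mul_cancel _)
      right_inv := cancel (a s)⁻¹ (a s) ⟨s, .inr rfl⟩ ⟨s, .inl rfl⟩ (mul_inv_cancel _) }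
  let F := FreeGroup.lift σ
  have hgenF : ∀ g, ∀ hg : IsGen a g,
      ∃ u : FreeGroup (Fin k), FreeGroup.lift a u = g ∧ ∀ p, F u p = mv g hg p := by
    rintro g ⟨s, rfl | rfl⟩
    · exact ⟨FreeGroup.of s, by simp, fun p => by simp [F, σ]⟩
    · exact ⟨(FreeGroup.of s)⁻¹, by simp, fun p => by simp [F, σ]⟩
  have shift : ∀ g y i m, F g (y, i + m) = ((F g (y, i)).1, (F g (y, i)).2 + m) := by
    intro g
    induction g using FreeGroup.induction_on with
    | C1 => simp
    | of s =>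
      intro y i m
      refine Prod.ext ?_ ?_ <;> simp [F, σ, mv]
      ring
    | inv_of s _ =>
      intro y i m
      refine Prod.ext ?_ ?_ <;> simp [F, σ, mv]
      ring
    | mul u v hu hv =>
      intro y i m
      rw [map_mul, Equiv.Perm.mul_apply, Equiv.Perm.mul_apply, hv]
      exact hu (F v (y, i)).1 (F v (y, i)).2 m
  have word : ∀ l : List (Fin k × Bool), l.length ≤ ℓ → ∀ (y : M) (i : ℤ),
      (F (FreeGroup.mk l) (y, i)).1.1 =
        fold h c d φ ψ (FreeGroup.lift a (FreeGroup.mk l) • y.1) ∧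
      (F (FreeGroup.mk l) (y, i)).2 =
        i + sheet h c d (FreeGroup.lift a (FreeGroup.mk l) • y.1) ∧
      c < h (FreeGroup.lift a (FreeGroup.mk l) • y.1) + l.length ∧
      h (FreeGroup.lift a (FreeGroup.mk l) • y.1) ≤ c + d + l.length := by
    intro l
    induction l with
    | nil =>
      intro _ y i
      simp only [← FreeGroup.one_eq_mk, map_one, one_smul, Equiv.Perm.one_apply,
        fold_mid y.2.2.1 y.2.2.2, sheet_mid y.2.2.1 y.2.2.2, add_zero, true_and]
      exact ⟨by simpa using y.2.2.1, by simpa using y.2.2.2⟩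
    | cons p l ih =>
      intro hlen y i
      simp only [List.length_cons] at hlen ⊢
      obtain ⟨e, e', e1, e2⟩ := ih (by omega) y i
      have hsplit : FreeGroup.mk (p :: l) = FreeGroup.mk [p] * FreeGroup.mk l := by
        rw [FreeGroup.mul_mk]; rfl
      obtain ⟨s, b⟩ := p
      have hgen : IsGen a (FreeGroup.lift a (FreeGroup.mk [(s, b)])) := by
        cases b
        · exact ⟨s, .inr (by simp)⟩
        · exact ⟨s, .inl (by simp)⟩
      have hF : ∀ q : M × ℤ, (F (FreeGroup.mk [(s, b)]) q).1.1 =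
          fold h c d φ ψ (FreeGroup.lift a (FreeGroup.mk [(s, b)]) • q.1.1) ∧
          (F (FreeGroup.mk [(s, b)]) q).2 =
            q.2 + sheet h c d (FreeGroup.lift a (FreeGroup.mk [(s, b)]) • q.1.1) := by
        intro q
        cases b <;> simp [F, σ, mv]
      have hyO := hO (FreeGroup.lift a (FreeGroup.mk l)) y.1 y.2.1
      obtain ⟨l1, l2⟩ := hlip _ hgen _ hyO
      rw [hsplit, map_mul, map_mul, Equiv.Perm.mul_apply, (hF _).1, (hF _).2, e, e', mul_smul,
        fold_step (T := 1) hm (by omega) hO hlip hgen hyO (r := l.length) (by omega) e1 e2,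
        add_assoc, sheet_step hm (by omega) hO hlip hgen hyO (r := l.length) (by omega) e1 e2]
      exact ⟨rfl, rfl, by omega, by omega⟩
  refine ⟨M, hfinM, F, fun r hr => ?_, shift, ?_⟩
  · refine Equiv.ext fun ⟨y, i⟩ => ?_
    obtain ⟨w1, w2, -, -⟩ := word _ (hR r hr).1 y i
    rw [FreeGroup.mk_toWord, (hR r hr).2, one_smul] at w1 w2
    rw [fold_mid y.2.2.1 y.2.2.2] at w1
    rw [sheet_mid y.2.2.1 y.2.2.2, add_zero] at w2
    exact Prod.ext (Subtype.ext w1) w2
  -- from every point one can get one copy down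
  have down : ∀ y : M, ∃ u y', F u (y, 0) = (y', -1) := by
    suffices ∀ t, ∀ y : M, h y.1 = c + t → ∃ u y', F u (y, 0) = (y', -1) from fun y =>
      this (h y.1 - c) y (by have := y.2.2.1; omega)
    intro t
    induction t with
    | zero => exact fun y e => absurd y.2.2.1 (by omega)
    | succ t ih =>
      intro y e
      obtain ⟨g, hg, hg'⟩ := hdown y.1 y.2.1 (by omega)
      obtain ⟨u, -, hu⟩ := hgenF g hg
      have := y.2.2.2
      rcases Nat.eq_zero_or_pos t with rfl | ht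
      · refine ⟨u, (mv g hg (y, 0)).1, ?_⟩
        rw [hu]
        refine Prod.ext rfl ?_
        change 0 + sheet h c d (g • y.1) = -1
        rw [sheet, if_pos (by omega)]
        rfl
      · obtain ⟨u', y', hy'⟩ := ih ⟨g • y.1, hO g _ y.2.1, by omega, by omega⟩
          (by simp only; omega)
        refine ⟨u' * u, y', ?_⟩
        rw [map_mul, Equiv.Perm.mul_apply, hu]
        change F u' (⟨fold h c d φ ψ (g • y.1), _⟩, 0 + sheet h c d (g • y.1)) = _
        simp only [fold_mid (φ := φ) (ψ := ψ) (show c < h (g • y.1) by omega)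
          (show h (g • y.1) ≤ c + d by omega)]
        rw [sheet_mid (by omega) (by omega), add_zero]
        exact hy'
  obtain ⟨y, hy, hy'⟩ := hpt
  have many : ∀ n : ℕ, ∃ u z, F u (⟨y, hy, by omega, by omega⟩, 0) = (z, -(n : ℤ)) := by
    intro n
    induction n with
    | zero => exact ⟨1, ⟨y, hy, by omega, by omega⟩, by simp⟩
    | succ n ih =>
      obtain ⟨u, z, hz⟩ := ih
      obtain ⟨u', z', hz'⟩ := down z
      refine ⟨u' * u, z', ?_⟩
      rw [map_mul, Equiv.Perm.mul_apply, hz, ← zero_add (-(n : ℤ)), shift, hz']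
      simp [add_comm]
  choose u z hz using many
  obtain ⟨i, j, hij, e⟩ := Finite.exists_ne_map_eq_of_infinite z
  have hi : (F (u i))⁻¹ (z i, -(i : ℤ)) = (⟨y, hy, by omega, by omega⟩, 0) := by
    rw [← hz i, Equiv.Perm.inv_def, Equiv.symm_apply_apply]
  have hji : F (u j * (u i)⁻¹) (z i, -(i : ℤ)) = (z i, -(j : ℤ)) := by
    rw [map_mul, map_inv, Equiv.Perm.mul_apply, hi, hz, e]
  refine ⟨u j * (u i)⁻¹, z i, ?_⟩
  have e0 := shift (u j * (u i)⁻¹) (z i) (-(i : ℤ)) i
  rw [neg_add_cancel, hji] at e0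
  rw [e0]
  refine ⟨rfl, ?_⟩
  simp only
  omega

/-- a finite pigeonhole for windows: thin windows occupy at least half of the positions -/
theorem exists_match_finite (k L B D : ℕ) :
    ∃ P : ℕ, ∀ {G : Type*} [Group G] {Ω : Type w} [MulAction G Ω] (a : Fin k → G) (O : Set Ω)
      (h : Ω → ℕ) (K : ℕ), 2 * L ≤ D → (∀ g : G, ∀ y ∈ O, g • y ∈ O) →
      {y | y ∈ O ∧ h y ≤ K * D}.Finite → 2 * (P + 1) ≤ K →
      2 * {y | y ∈ O ∧ h y ≤ K * D}.ncard ≤ B * K →
      ∃ c d, D ≤ d ∧ c + d + L ≤ K * D ∧ L ≤ c ∧ ∃ φ ψ : Ω → Ω, Match a O h c L d φ ψ := by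
  classical
  refine ⟨Fintype.card (Set (Fin B × Fin (2 * L + 1)) × Set (Fin k × Fin B × Fin B)),
    fun {G} _ {Ω} _ a O h K hLD hO hfin hK hcard => ?_⟩
  let W : ℕ → Set Ω := fun n => {y | y ∈ O ∧ n * D < h y ∧ h y ≤ n * D + 2 * L}
  have hend : ∀ n < K, n * D + 2 * L ≤ K * D := fun n hn => by
    have : (n + 1) * D ≤ K * D := Nat.mul_le_mul_right D hn
    rw [add_one_mul] at this
    omega
  have hWsub : ∀ n < K, W n ⊆ {y | y ∈ O ∧ h y ≤ K * D} := fun n hn y hy =>
    ⟨hy.1, hy.2.2.trans (hend n hn)⟩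
  have hWfin : ∀ n < K, (W n).Finite := fun n hn => hfin.subset (hWsub n hn)
  have disj : ∀ m n, ∀ y, y ∈ W m → y ∈ W n → m = n := by
    intro m n y hm hn
    rcases lt_trichotomy m n with hlt | hlt | hlt
    · have : (m + 1) * D ≤ n * D := Nat.mul_le_mul_right D hlt
      rw [add_one_mul] at this
      have := hm.2.2; have := hn.2.1; omega
    · exact hlt
    · have : (n + 1) * D ≤ m * D := Nat.mul_le_mul_right D hlt
      rw [add_one_mul] at this
      have := hn.2.2; have := hm.2.1; omega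
  let A : Finset ℕ := (Finset.range K).filter fun n => (W n).ncard ≤ B
  let Bad : Finset ℕ := (Finset.range K).filter fun n => ¬(W n).ncard ≤ B
  have hAK : A.card + Bad.card = K := by
    rw [Finset.card_filter_add_card_filter_not, Finset.card_range]
  have hbad : Bad.card * (B + 1) ≤ {y | y ∈ O ∧ h y ≤ K * D}.ncard := by
    have h1 : Bad.card * (B + 1) ≤ ∑ n ∈ Bad, (W n).ncard := by
      rw [← smul_eq_mul, ← Finset.sum_const]
      exact Finset.sum_le_sum fun n hn => by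
        have := (Finset.mem_filter.1 hn).2; omega
    refine h1.trans ?_
    let V : ℕ → Finset Ω := fun n => hfin.toFinset.filter fun y => y ∈ W n
    have hV : ∀ n ∈ Bad, (W n).ncard = (V n).card := by
      intro n hn
      rw [← Set.ncard_coe_finset]
      congr 1
      ext y
      simp only [V, Finset.coe_filter, Set.Finite.mem_toFinset, Set.mem_ofPred_eq]
      exact ⟨fun hy => ⟨hWsub n (Finset.mem_range.1 (Finset.mem_filter.1 hn).1) hy, hy⟩,
        fun hy => hy.2⟩
    rw [Finset.sum_congr rfl hV, ← Finset.card_biUnion ?_, Set.ncard_eq_toFinset_card _ hfin]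
    · exact Finset.card_le_card fun y hy => by
        simp only [Finset.mem_biUnion, V, Finset.mem_filter] at hy
        obtain ⟨n, -, hy, -⟩ := hy
        exact hy
    · intro m _ n _ hmn
      exact Finset.disjoint_left.2 fun y hy hy' =>
        hmn (disj m n y (Finset.mem_filter.1 hy).2 (Finset.mem_filter.1 hy').2)
  have hA : Fintype.card (Set (Fin B × Fin (2 * L + 1)) × Set (Fin k × Fin B × Fin B)) <
      A.card := by
    by_contra hcon
    have h2 : (B + 1) * K ≤ (B + 1) * (2 * Bad.card) := Nat.mul_le_mul_left _ (by omega)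
    nlinarith
  have hι : ∀ n : A, Nonempty (W n.1 ↪ Fin B) := fun n => by
    have := (hWfin n.1 (Finset.mem_range.1 (Finset.mem_filter.1 n.2).1)).fintype
    refine Function.Embedding.nonempty_of_card_le ?_
    rw [Fintype.card_fin, ← Nat.card_eq_fintype_card, Nat.card_coe_set_eq]
    exact (Finset.mem_filter.1 n.2).2
  let ι : ∀ n : A, W n.1 ↪ Fin B := fun n => (hι n).some
  let patt : A → Set (Fin B × Fin (2 * L + 1)) × Set (Fin k × Fin B × Fin B) := fun n =>
    ({p | ∃ y : W n.1, ι n y = p.1 ∧ h y.1 = n.1 * D + p.2.val},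
      {p | ∃ y y' : W n.1, ι n y = p.2.1 ∧ ι n y' = p.2.2 ∧ a p.1 • y.1 = y'.1})
  obtain ⟨i₀, j₀, hne, he⟩ := Fintype.exists_ne_map_eq_of_card_lt patt (by simpa using hA)
  obtain ⟨i, j, hlt, e⟩ : ∃ i j : A, i.1 < j.1 ∧ patt i = patt j := by
    rcases lt_trichotomy i₀.1 j₀.1 with hl | hl | hl
    · exact ⟨i₀, j₀, hl, he⟩
    · exact absurd (Subtype.ext hl) hne
    · exact ⟨j₀, i₀, hl, he.symm⟩
  have hjK := Finset.mem_range.1 (Finset.mem_filter.1 j.2).1
  obtain ⟨d, hd⟩ := Nat.le.dest (Nat.mul_le_mul_right D hlt.le)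
  have hDd : D ≤ d := by
    have : (i.1 + 1) * D ≤ j.1 * D := Nat.mul_le_mul_right D hlt
    rw [add_one_mul] at this
    omega
  have find : ∀ n m : A, patt n = patt m → ∀ y : W n.1,
      ∃ z : W m.1, ι m z = ι n y ∧ h z.1 + n.1 * D = h y.1 + m.1 * D := by
    intro n m e y
    obtain ⟨yO, y1, y2⟩ := y.2
    have hmem : (ι n y, (⟨h y.1 - n.1 * D, by omega⟩ : Fin (2 * L + 1))) ∈ (patt n).1 :=
      ⟨y, rfl, by simp only; omega⟩
    rw [e] at hmem
    obtain ⟨z, hz, hz'⟩ := hmem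
    exact ⟨z, hz, by simp only at hz'; omega⟩
  have compat : ∀ n m : A, patt n = patt m → ∀ g, IsGen a g → ∀ (y y' : W n.1) (z z' : W m.1),
      ι m z = ι n y → ι m z' = ι n y' → g • y.1 = y'.1 → g • z.1 = z'.1 := by
    intro n m e g hg y y' z z' hz hz' hgy
    have key : ∀ s (y y' : W n.1) (z z' : W m.1), ι m z = ι n y → ι m z' = ι n y' →
        a s • y.1 = y'.1 → a s • z.1 = z'.1 := by
      intro s y y' z z' hz hz' hgy
      have hmem : (s, ι n y, ι n y') ∈ (patt n).2 := ⟨y, y', rfl, rfl, hgy⟩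
      rw [e] at hmem
      obtain ⟨u, u', hu, hu', huu⟩ := hmem
      rw [(ι m).injective (hz.trans hu.symm), (ι m).injective (hz'.trans hu'.symm)]
      exact huu
    obtain ⟨s, rfl | rfl⟩ := hg
    · exact key s y y' z z' hz hz' hgy
    · rw [inv_smul_eq_iff] at hgy ⊢
      exact (key s y' y z' z hz' hz hgy.symm).symm
  choose f hf hf' using find i j e
  choose f' hf1 hf2 using find j i e.symm
  let φ : Ω → Ω := fun y => if hy : y ∈ W i.1 then (f ⟨y, hy⟩).1 else y
  let ψ : Ω → Ω := fun y => if hy : y ∈ W j.1 then (f' ⟨y, hy⟩).1 else y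
  have hφd : ∀ y (hy : y ∈ W i.1), φ y = (f ⟨y, hy⟩).1 := fun y hy => dif_pos hy
  have hψd : ∀ y (hy : y ∈ W j.1), ψ y = (f' ⟨y, hy⟩).1 := fun y hy => dif_pos hy
  refine ⟨i.1 * D + L, d, hDd, by have := hend j.1 hjK; omega, by omega, φ, ψ,
    ⟨fun y hy h1 h2 => ?_, fun y hy h1 h2 => ?_,
    fun g hg y hy h1 h2 h3 h4 => ?_, fun g hg y hy h1 h2 h3 h4 => ?_⟩⟩
  · have hy' : y ∈ W i.1 := ⟨hy, by omega, by omega⟩
    have u : h (f ⟨y, hy'⟩).1 + i.1 * D = h y + j.1 * D := hf' ⟨y, hy'⟩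
    rw [hφd y hy', hψd _ (f ⟨y, hy'⟩).2]
    refine ⟨(f ⟨y, hy'⟩).2.1, by omega, ?_⟩
    exact congrArg Subtype.val ((ι i).injective ((hf1 (f ⟨y, hy'⟩)).trans (hf ⟨y, hy'⟩)))
  · have hy' : y ∈ W j.1 := ⟨hy, by omega, by omega⟩
    have u : h (f' ⟨y, hy'⟩).1 + j.1 * D = h y + i.1 * D := hf2 ⟨y, hy'⟩
    rw [hψd y hy', hφd _ (f' ⟨y, hy'⟩).2]
    refine ⟨(f' ⟨y, hy'⟩).2.1, by omega, ?_⟩
    exact congrArg Subtype.val ((ι j).injective ((hf (f' ⟨y, hy'⟩)).trans (hf1 ⟨y, hy'⟩)))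
  · have hy' : y ∈ W i.1 := ⟨hy, by omega, by omega⟩
    have hgy : g • y ∈ W i.1 := ⟨hO g y hy, by omega, by omega⟩
    rw [hφd y hy', hφd _ hgy]
    exact (compat i j e g hg ⟨y, hy'⟩ ⟨_, hgy⟩ _ _ (hf _) (hf _) rfl).symm
  · have hy' : y ∈ W j.1 := ⟨hy, by omega, by omega⟩
    have hgy : g • y ∈ W j.1 := ⟨hO g y hy, by omega, by omega⟩
    rw [hψd y hy', hψd _ hgy]
    exact (compat j i e.symm g hg ⟨y, hy'⟩ ⟨_, hgy⟩ _ _ (hf1 _) (hf1 _) rfl).symm

end Cover

end Vale.Agent.P192
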