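import Mathlib
import Vale.Agent.P192.Winding

/-!
P192: Schreier graphs of finitely presented periodic groups.
-/

namespace Vale.Agent.P192

open Subgroup Vale.Agent.P196

universe u v

theorem word_transfer {G Ω : Type*} [Group G] [MulAction G Ω] {S A : Set G} {T : ℕ}
    (hA : ∀ b ∈ A, ∃ l : List G, l.length ≤ T ∧ (∀ e ∈ l, e ∈ S ∨ e⁻¹ ∈ S) ∧ l.prod = b)
    (x : Ω) (m : ℕ) : ball A x m ⊆ ball S x (T * m) := by
  induction m with
  | zero =>
    rintro y ⟨l, h1, -, rfl⟩
    rw [List.length_eq_zero_iff.1 (Nat.le_zero.1 h1)]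
    exact ⟨[], by simp, by simp, rfl⟩
  | succ m ih =>
    intro y hy
    rcases ball_succ m hy with hy | hy
    · exact ball_mono (Nat.mul_le_mul_left T m.le_succ) (ih hy)
    · simp only [Set.mem_iUnion, Set.mem_image] at hy
      obtain ⟨b, hb, z, hz, rfl⟩ := hy
      rcases hb with hb | hb
      · obtain ⟨l, h1, h2, rfl⟩ := hA b hb
        exact ball_mono (by rw [Nat.mul_succ]; omega) (ball_smul (ih hz) h2)
      · obtain ⟨l, h1, h2, h3⟩ := hA b⁻¹ hb
        have e : b = ((l.map fun e => e⁻¹).reverse).prod := by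
          rw [← List.prod_inv_reverse, h3, inv_inv]
        rw [e]
        refine ball_mono ?_ (ball_smul (ih hz) fun e he => ?_)
        · rw [List.length_reverse, List.length_map, Nat.mul_succ]; omega
        · obtain ⟨u, hu, rfl⟩ := List.mem_map.1 (List.mem_reverse.1 he)
          rw [inv_inv]
          exact (h2 u hu).symm

theorem exists_gens {G : Type*} [Group G] [Group.IsFinitelyPresented G] :
    ∃ (k : ℕ) (π : FreeGroup (Fin k) →* G), Function.Surjective π ∧
      closure (Set.range fun s => π (FreeGroup.of s)) = ⊤ := by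
  obtain ⟨k, π, hπ, -⟩ := (inferInstance : Group.IsFinitelyPresented G).out
  refine ⟨k, π, hπ, ?_⟩
  show closure (Set.range (π ∘ FreeGroup.of)) = ⊤
  rw [Set.range_comp, ← MonoidHom.map_closure, FreeGroup.closure_range_of,
    Subgroup.map_top_of_surjective _ hπ]

/-- if one large ball has at most `C n` points then it is the whole orbit, or the group virtually
maps onto `ℤ` -/
theorem orbit_eq_ball {G : Type u} [Group G] [Group.IsFinitelyPresented G] {S : Set G}
    (hgen : closure S = ⊤) (hS : S.Finite) (C : ℕ) :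
    ∃ R, ∀ (Ω : Type v) [MulAction G Ω] (x : Ω) (n : ℕ), R ≤ n →
      (ball S x n).ncard ≤ C * n → MulAction.orbit G x = ball S x n ∨ VirtIndicable G := by
  classical
  obtain ⟨k, π, hπ, R, hR, hker⟩ := (inferInstance : Group.IsFinitelyPresented G).out
  let a : Fin k → G := fun s => π (FreeGroup.of s)
  have ha : FreeGroup.lift a = π := FreeGroup.ext_hom _ _ fun s => FreeGroup.lift_apply_of
  have hA : closure (Set.range a) = ⊤ := by
    show closure (Set.range (π ∘ FreeGroup.of)) = ⊤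
    rw [Set.range_comp, ← MonoidHom.map_closure, FreeGroup.closure_range_of,
      Subgroup.map_top_of_surjective _ hπ]
  choose wd hwd hwd' using fun s => exists_word hgen (a s)
  let T : ℕ := (Finset.univ.sup fun s => (wd s).length) + 1
  have hT : ∀ b ∈ Set.range a, ∃ l : List G, l.length ≤ T ∧ (∀ e ∈ l, e ∈ S ∨ e⁻¹ ∈ S) ∧
      l.prod = b := by
    rintro _ ⟨s, rfl⟩
    exact ⟨wd s, (Finset.le_sup (f := fun s => (wd s).length) (Finset.mem_univ s)).trans
      (Nat.le_succ _), hwd s, hwd' s⟩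
  let ℓ : ℕ := hR.toFinset.sup fun r => r.toWord.length
  have hRr : ∀ r ∈ R, r.toWord.length ≤ ℓ ∧ FreeGroup.lift a r = 1 := fun r hr =>
    ⟨Finset.le_sup (f := fun r => r.toWord.length) (hR.mem_toFinset.2 hr), by
      rw [ha, ← MonoidHom.mem_ker, ← hker]
      exact subset_normalClosure hr⟩
  let L : ℕ := ℓ + 2
  let D : ℕ := 2 * L + 4
  obtain ⟨P, hP⟩ := exists_match_finite.{v} k L (4 * C * T * D) D
  refine ⟨T * D * (2 * (P + 1)), fun Ω _ x n hn hball => ?_⟩
  refine or_iff_not_imp_left.2 fun hne => ?_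
  let K : ℕ := n / (T * D)
  have hTD : 0 < T * D := Nat.mul_pos (Nat.succ_pos _) (by omega)
  have hK : 2 * (P + 1) ≤ K := (Nat.le_div_iff_mul_le hTD).2 (by rw [mul_comm]; exact hn)
  have hn1 : T * (K * D) ≤ n := by
    rw [mul_left_comm]
    exact Nat.div_mul_le_self n (T * D)
  have hn2 : n ≤ 2 * (K * (T * D)) := by
    have h0 : n < K * (T * D) + T * D := Nat.lt_div_mul_add (a := n) hTD
    have h1 : 1 * (T * D) ≤ K * (T * D) := Nat.mul_le_mul_right _ (by omega)
    omega
  have hsub : ball (Set.range a) x (K * D) ⊆ ball S x n :=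
    (word_transfer hT x _).trans (ball_mono hn1)
  have hAfin : ∀ m, (ball (Set.range a) x m).Finite := fun m => ball_finite (Set.finite_range a) m
  let O : Set Ω := MulAction.orbit G x
  have hO : ∀ g : G, ∀ y ∈ O, g • y ∈ O := fun g y hy =>
    MulAction.mem_orbit_of_mem_orbit g hy
  have hexi : ∀ y ∈ O, ∃ m, y ∈ ball (Set.range a) x m := fun y hy => exists_ball hA hy
  let h : Ω → ℕ := fun y => sInf {m | y ∈ ball (Set.range a) x m}
  have hmem : ∀ y ∈ O, y ∈ ball (Set.range a) x (h y) := fun y hy => Nat.sInf_mem (hexi y hy)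
  have hle : ∀ {y m}, y ∈ ball (Set.range a) x m → h y ≤ m := fun hy => Nat.sInf_le hy
  have hgenA : ∀ g, IsGen a g → g ∈ Set.range a ∨ g⁻¹ ∈ Set.range a := by
    rintro g ⟨s, rfl | rfl⟩
    exacts [.inl ⟨s, rfl⟩, .inr ⟨s, (inv_inv _).symm⟩]
  have hinv : ∀ g, IsGen a g → IsGen a g⁻¹ := by
    rintro g ⟨s, rfl | rfl⟩
    exacts [⟨s, .inr rfl⟩, ⟨s, .inl (inv_inv _)⟩]
  have hlip1 : ∀ g, IsGen a g → ∀ y ∈ O, h (g • y) ≤ h y + 1 := fun g hg y hy =>
    hle (by simpa using ball_smul (hmem y hy) (l := [g]) (by simpa using hgenA g hg))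
  have hlip : ∀ g, IsGen a g → ∀ y ∈ O, h (g • y) ≤ h y + 1 ∧ h y ≤ h (g • y) + 1 :=
    fun g hg y hy => ⟨hlip1 g hg y hy, by
      simpa using hlip1 g⁻¹ (hinv g hg) (g • y) (hO g y hy)⟩
  have hdown : ∀ y ∈ O, 0 < h y → ∃ g, IsGen a g ∧ h (g • y) + 1 = h y := by
    intro y hy hpos
    obtain ⟨l, hl1, hl2, hl3⟩ := hmem y hy
    cases l with
    | nil =>
      have : h y ≤ 0 := hle ⟨[], by simp, by simp, hl3⟩
      omega
    | cons b l =>
      have hb : IsGen a b := by
        rcases hl2 b (by simp) with ⟨s, hs⟩ | ⟨s, hs⟩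
        exacts [⟨s, .inl hs.symm⟩, ⟨s, .inr (by rw [hs, inv_inv])⟩]
      refine ⟨b⁻¹, hinv b hb, ?_⟩
      have h1 : h (b⁻¹ • y) ≤ l.length := hle ⟨l, le_rfl, fun e he => hl2 e (by simp [he]),
        by rw [← hl3, List.prod_cons, mul_smul, inv_smul_smul]⟩
      have h2 := (hlip b⁻¹ (hinv b hb) y hy).2
      simp only [List.length_cons] at hl1
      omega
  have hlev : ∀ m, {y | y ∈ O ∧ h y ≤ m}.Finite := fun m =>
    (hAfin m).subset fun y hy => ball_mono hy.2 (hmem y hy.1)
  have hfar : ∃ y ∈ O, K * D < h y := by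
    by_contra hcon
    push Not at hcon
    refine hne (Set.Subset.antisymm (fun y hy => hsub (ball_mono (hcon y hy) (hmem y hy))) ?_)
    rintro y ⟨l, -, -, rfl⟩
    exact MulAction.mem_orbit x _
  have hlevel : ∀ m, m ≤ K * D → ∃ y ∈ O, h y = m := by
    obtain ⟨y₀, hy₀, hy₀'⟩ := hfar
    intro m hm
    obtain ⟨t, ht⟩ := Nat.le.dest (hm.trans hy₀'.le)
    have key : ∀ t, t ≤ h y₀ → ∃ y ∈ O, h y + t = h y₀ := by
      intro t
      induction t with
      | zero => exact fun _ => ⟨y₀, hy₀, rfl⟩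
      | succ t ih =>
        intro ht
        obtain ⟨y, hy, hyt⟩ := ih (by omega)
        obtain ⟨g, -, hg⟩ := hdown y hy (by omega)
        exact ⟨g • y, hO g y hy, by omega⟩
    obtain ⟨y, hy, hy'⟩ := key t (by omega)
    exact ⟨y, hy, by omega⟩
  have hcard : 2 * {y | y ∈ O ∧ h y ≤ K * D}.ncard ≤ 4 * C * T * D * K := by
    have h1 : {y | y ∈ O ∧ h y ≤ K * D}.ncard ≤ (ball S x n).ncard :=
      Set.ncard_le_ncard (fun y hy => hsub (ball_mono hy.2 (hmem y hy.1))) (ball_finite hS n)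
    have h2 : C * n ≤ C * (2 * (K * (T * D))) := Nat.mul_le_mul_left C hn2
    have h3 : C * (2 * (K * (T * D))) * 2 = 4 * C * T * D * K := by ring
    omega
  obtain ⟨c, d, hd, hcd, -, φ, ψ, hm⟩ := hP a O h K (by omega) hO (hlev _) hK hcard
  obtain ⟨M, _, F, hF, hshift, g, y, hw1, hw2⟩ :=
    winding hm (by omega) hO hlip hdown (hlev _) ℓ le_rfl R hRr (hlevel (c + 1) (by omega))
  have hkerF : π.ker ≤ F.ker := by
    rw [← hker]
    exact normalClosure_le_normal fun r hr => hF r hr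
  have hlift : ∀ u, π.liftOfSurjective hπ ⟨F, hkerF⟩ (π u) = F u := fun u =>
    MonoidHom.liftOfRightInverse_comp_apply _ _ _ _ u
  refine virtIndicable_of_winding (π.liftOfSurjective hπ ⟨F, hkerF⟩) (fun g y i m => ?_)
    ⟨π g, y, by rw [hlift]; exact hw1, by rw [hlift]; exact hw2⟩
  obtain ⟨u, rfl⟩ := hπ g
  rw [hlift]
  exact hshift u y i m

theorem periodic_orbit_eq_ball {G : Type u} [Group G] [Group.IsFinitelyPresented G]
    (hG : IsMulTorsion G) {S : Set G} (hgen : closure S = ⊤) (hS : S.Finite) (C : ℕ) :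
    ∃ R, ∀ (Ω : Type v) [MulAction G Ω] (x : Ω) (n : ℕ), R ≤ n →
      (ball S x n).ncard ≤ C * n → MulAction.orbit G x = ball S x n := by
  obtain ⟨R, hR⟩ := orbit_eq_ball.{u, v} hgen hS C
  exact ⟨R, fun Ω _ x n hn hball => (hR Ω x n hn hball).resolve_right
    (not_virtIndicable_of_isTorsion hG)⟩

/-- a finitely generated group with a faithful action all of whose orbits have at most `N`
points is finite -/
theorem finite_of_bounded_orbits {G Ω : Type*} [Group G] [MulAction G Ω] [FaithfulSMul G Ω]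
    {k : ℕ} (a : Fin k → G) (ha : closure (Set.range a) = ⊤) (N : ℕ)
    (hN : ∀ x : Ω, (MulAction.orbit G x).Finite ∧ (MulAction.orbit G x).ncard ≤ N) :
    Finite G := by
  classical
  have hfin : Finite (G →* Equiv.Perm (Fin N)) :=
    Finite.of_injective (fun f => fun s => f (a s)) fun f g e =>
      MonoidHom.eq_of_eqOn_dense ha (by rintro _ ⟨s, rfl⟩; exact congrFun e s)
  refine Finite.of_injective (fun g : G => fun f : G →* Equiv.Perm (Fin N) => f g)
    fun g g' e => FaithfulSMul.eq_of_smul_eq_smul fun x : Ω => ?_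
  have hx := (hN x).1.fintype
  obtain ⟨ι⟩ : Nonempty (MulAction.orbit G x ↪ Fin N) :=
    Function.Embedding.nonempty_of_card_le (by
      rw [Fintype.card_fin, ← Nat.card_eq_fintype_card, Nat.card_coe_set_eq]
      exact (hN x).2)
  have h1 := congrFun e ((Equiv.Perm.viaEmbeddingHom ι).comp
    (MulAction.toPermHom G (MulAction.orbit G x)))
  have h2 := Equiv.Perm.viaEmbeddingHom_injective ι h1
  simpa using congrArg Subtype.val (DFunLike.congr_fun h2 ⟨x, MulAction.mem_orbit_self x⟩)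

/-- finitely presented periodic subgroups of groups with uniformly linearly growing orbital
graphs are finite -/
theorem periodic_subgroup_finite {Γ : Type u} [Group Γ] {Ω : Type v} [MulAction Γ Ω]
    [FaithfulSMul Γ Ω] {S : Set Γ} (hS : S.Finite) (hgen : closure S = ⊤) {C : ℕ}
    (hlin : ∀ (x : Ω) n, 0 < n → (ball S x n).ncard ≤ C * n) (H : Subgroup Γ)
    [Group.IsFinitelyPresented H] (hH : IsMulTorsion H) : Finite H := by
  classical
  obtain ⟨k, π, -, hA⟩ := exists_gens (G := H)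
  let a : Fin k → H := fun s => π (FreeGroup.of s)
  choose wd hwd hwd' using fun s => exists_word hgen (a s : Γ)
  let T : ℕ := (Finset.univ.sup fun s => (wd s).length) + 1
  have hT : ∀ b ∈ Set.range (fun s => (a s : Γ)), ∃ l : List Γ, l.length ≤ T ∧
      (∀ e ∈ l, e ∈ S ∨ e⁻¹ ∈ S) ∧ l.prod = b := by
    rintro _ ⟨s, rfl⟩
    exact ⟨wd s, (Finset.le_sup (f := fun s => (wd s).length) (Finset.mem_univ s)).trans
      (Nat.le_succ _), hwd s, hwd' s⟩
  obtain ⟨R, hR⟩ := periodic_orbit_eq_ball.{u, v} hH hA (Set.finite_range a) (C * T)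
  refine finite_of_bounded_orbits (Ω := Ω) a hA (C * T * (R + 1)) fun x => ?_
  have hsub : ball (Set.range a) x (R + 1) ⊆ ball S x (T * (R + 1)) := by
    refine fun y hy => word_transfer hT x _ ?_
    obtain ⟨l, h1, h2, rfl⟩ := hy
    refine ⟨l.map Subtype.val, by simpa using h1, fun e he => ?_, ?_⟩
    · obtain ⟨b, hb, rfl⟩ := List.mem_map.1 he
      rcases h2 b hb with ⟨s, hs⟩ | ⟨s, hs⟩
      exacts [.inl ⟨s, congrArg Subtype.val hs⟩, .inr ⟨s, congrArg Subtype.val hs⟩]
    · rw [show (l.map Subtype.val).prod = (l.prod : Γ) by simp]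
      rfl
  have hcard : (ball (Set.range a) x (R + 1)).ncard ≤ C * T * (R + 1) := by
    rw [mul_assoc]
    exact (Set.ncard_le_ncard hsub (ball_finite hS _)).trans
      (hlin x _ (Nat.mul_pos (Nat.succ_pos _) (Nat.succ_pos _)))
  rw [hR Ω x (R + 1) (Nat.le_succ R) hcard]
  exact ⟨ball_finite (Set.finite_range a) _, hcard⟩

end Vale.Agent.P192
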