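import Mathlib
import Vale.Agent.P192.Main

/-!
P192: Schreier graphs exhausted by finite sets with boundedly many boundary points.  Two nested
sets with the same boundary pattern are glued; the cyclic cover gives a winding number.
-/

namespace Vale.Agent.P192

open Subgroup Vale.Agent.P196

universe u v

/-- the points of `A` that some element of `S` or inverse of one moves out of `A` -/
def frontierSet {G : Type*} [Group G] {Ω : Type*} [MulAction G Ω] (S : Set G) (A : Set Ω) :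
    Set Ω :=
  {y | y ∈ A ∧ ∃ g, (g ∈ S ∨ g⁻¹ ∈ S) ∧ g • y ∉ A}

section Near

variable {G : Type*} [Group G] {Ω : Type*} [MulAction G Ω] {S : Set G}

/-- the points at Schreier distance at most `r` from the frontier of `A` -/
def near (S : Set G) (A : Set Ω) (r : ℕ) : Set Ω :=
  ⋃ z ∈ frontierSet S A, ball S z r

theorem near_mono {A : Set Ω} {r r' : ℕ} (h : r ≤ r') : near S A r ⊆ near S A r' :=
  Set.iUnion₂_mono fun _ _ => ball_mono h

theorem near_smul {A : Set Ω} {r : ℕ} {y : Ω} (hy : y ∈ near S A r) {g : G}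
    (hg : g ∈ S ∨ g⁻¹ ∈ S) : g • y ∈ near S A (r + 1) := by
  simp only [near, Set.mem_iUnion] at hy ⊢
  obtain ⟨z, hz, hy⟩ := hy
  exact ⟨z, hz, by simpa using ball_smul hy (l := [g]) (by simpa using hg)⟩

theorem self_mem_ball (x : Ω) (n : ℕ) : x ∈ ball S x n :=
  ⟨[], by simp, by simp, by simp⟩

theorem ball_smul_one {x : Ω} {n : ℕ} {y : Ω} (hy : y ∈ ball S x n) {g : G}
    (hg : g ∈ S ∨ g⁻¹ ∈ S) : g • y ∈ ball S x (n + 1) := by
  simpa using ball_smul hy (l := [g]) (by simpa using hg)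

theorem gen_inv {g : G} (hg : g ∈ S ∨ g⁻¹ ∈ S) : g⁻¹ ∈ S ∨ (g⁻¹)⁻¹ ∈ S := by
  rw [inv_inv]; exact hg.symm

theorem ball_symm {x y : Ω} {n : ℕ} (hy : y ∈ ball S x n) : x ∈ ball S y n := by
  obtain ⟨l, h1, h2, rfl⟩ := hy
  refine ⟨(l.map fun e => e⁻¹).reverse, by simpa using h1, fun e he => ?_, ?_⟩
  · obtain ⟨u, hu, rfl⟩ := List.mem_map.1 (List.mem_reverse.1 he)
    exact gen_inv (h2 u hu)
  · rw [← List.prod_inv_reverse, inv_smul_smul]

theorem ball_trans {x y z : Ω} {m n : ℕ} (hy : y ∈ ball S x m) (hz : z ∈ ball S y n) :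
    z ∈ ball S x (m + n) := by
  obtain ⟨l, h1, h2, rfl⟩ := hz
  exact ball_mono (by omega) (ball_smul hy h2)

theorem ball_subset_image (x : Ω) (n : ℕ) :
    ball S x (n + 1) ⊆ (fun p : Option G × Ω => (p.1.getD 1) • p.2) ''
      ((insert none (Option.some '' (S ∪ {a | a⁻¹ ∈ S}))) ×ˢ ball S x n) := by
  intro y hy
  rcases ball_succ n hy with hy | hy
  · exact ⟨(none, y), ⟨Set.mem_insert _ _, hy⟩, one_smul G y⟩
  · simp only [Set.mem_iUnion, Set.mem_image] at hy
    obtain ⟨b, hb, z, hz, rfl⟩ := hy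
    exact ⟨(some b, z), ⟨.inr ⟨b, hb, rfl⟩, hz⟩, rfl⟩

theorem ncard_ball_le (hS : S.Finite) (x : Ω) (n : ℕ) :
    (ball S x n).ncard ≤ (2 * S.ncard + 1) ^ n := by
  induction n with
  | zero =>
    refine (Set.ncard_le_ncard (t := {x}) ?_ (Set.finite_singleton x)).trans (by simp)
    rintro y ⟨l, h1, -, rfl⟩
    rw [List.length_eq_zero_iff.1 (Nat.le_zero.1 h1)]
    simp
  | succ n ih =>
    have hfin : (insert none (Option.some '' (S ∪ {a | a⁻¹ ∈ S}))).Finite :=
      ((hS.union hS.inv).image _).insert _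
    refine ((Set.ncard_le_ncard (ball_subset_image x n) ((hfin.prod (ball_finite hS n)).image _)).trans
      ((Set.ncard_image_le (hfin.prod (ball_finite hS n))).trans ?_))
    rw [Set.ncard_prod, pow_succ']
    refine Nat.mul_le_mul ((Set.ncard_insert_le _ _).trans ?_) ih
    refine Nat.succ_le_succ ((Set.ncard_image_le (hS.union hS.inv)).trans
      ((Set.ncard_union_le _ _).trans ?_))
    have hinv : ({a : G | a⁻¹ ∈ S} : Set G).ncard ≤ S.ncard :=
      Set.ncard_le_ncard_of_injOn (fun a => a⁻¹) (fun a ha => ha) inv_injective.injOn hS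
    exact (Nat.add_le_add_left hinv _).trans_eq (two_mul _).symm

theorem near_finite (hS : S.Finite) {A : Set Ω} (hA : A.Finite) (r : ℕ) :
    (near S A r).Finite :=
  Set.Finite.biUnion (hA.subset fun _ hy => hy.1) fun _ _ => ball_finite hS r

theorem ncard_near_le (hS : S.Finite) {A : Set Ω} (hA : A.Finite) {B : ℕ}
    (hB : (frontierSet S A).ncard ≤ B) (r : ℕ) :
    (near S A r).ncard ≤ B * (2 * S.ncard + 1) ^ r := by
  classical
  have hF : (frontierSet S A).Finite := hA.subset fun _ hy => hy.1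
  have e : near S A r = (hF.toFinset.biUnion fun z => (ball_finite hS (x := z) r).toFinset :
      Finset Ω) := by
    ext y
    simp [near]
  rw [e, Set.ncard_coe_finset]
  refine Finset.card_biUnion_le.trans
    ((Finset.sum_le_card_nsmul _ _ ((2 * S.ncard + 1) ^ r) fun z _ => ?_).trans ?_)
  · rw [← Set.ncard_eq_toFinset_card _ (ball_finite hS r)]
    exact ncard_ball_le hS z r
  · rw [← Set.ncard_eq_toFinset_card _ hF, smul_eq_mul]
    exact Nat.mul_le_mul_right _ hB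

/-- the part of `A` that can be reached from `x` without leaving `A`, in at most `n` steps -/
def grow (S : Set G) (A : Set Ω) (x : Ω) : ℕ → Set Ω
  | 0 => {x}
  | n + 1 => grow S A x n ∪ {y | y ∈ A ∧ ∃ g, (g ∈ S ∨ g⁻¹ ∈ S) ∧ g • y ∈ grow S A x n}

/-- the component of `x` in `A` -/
def comp (S : Set G) (A : Set Ω) (x : Ω) : Set Ω := ⋃ n, grow S A x n

theorem grow_subset {A : Set Ω} {x : Ω} (hx : x ∈ A) : ∀ n, grow S A x n ⊆ A
  | 0 => Set.singleton_subset_iff.2 hx
  | n + 1 => Set.union_subset (grow_subset hx n) fun _ hy => hy.1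

theorem grow_mono {A : Set Ω} {x : Ω} {m n : ℕ} (h : m ≤ n) :
    grow S A x m ⊆ grow S A x n := by
  induction h with
  | refl => exact subset_rfl
  | step _ ih => exact ih.trans Set.subset_union_left

theorem grow_subset_ball {A : Set Ω} {x : Ω} : ∀ n, grow S A x n ⊆ ball S x n
  | 0 => Set.singleton_subset_iff.2 (self_mem_ball x 0)
  | n + 1 => by
    refine Set.union_subset ((grow_subset_ball n).trans (ball_mono n.le_succ)) ?_
    rintro y ⟨-, g, hg, hy⟩
    simpa using ball_smul_one (grow_subset_ball n hy) (gen_inv hg)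

theorem comp_subset {A : Set Ω} {x : Ω} (hx : x ∈ A) : comp S A x ⊆ A :=
  Set.iUnion_subset (grow_subset hx)

theorem comp_subset_ball {A : Set Ω} (hA : A.Finite) {x : Ω} (hx : x ∈ A) :
    comp S A x ⊆ ball S x A.ncard := by
  obtain ⟨t, ht, hst⟩ : ∃ t ≤ A.ncard, grow S A x (t + 1) ⊆ grow S A x t := by
    by_contra hcon
    push Not at hcon
    have key : ∀ t ≤ A.ncard, t + 1 ≤ (grow S A x t).ncard := by
      intro t
      induction t with
      | zero => exact fun _ => by simp [grow]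
      | succ t ih =>
        intro ht
        have h1 : (grow S A x t).ncard < (grow S A x (t + 1)).ncard :=
          Set.ncard_lt_ncard ⟨grow_mono t.le_succ, hcon t (by omega)⟩
            (hA.subset (grow_subset hx _))
        have := ih (by omega)
        omega
    have := (key _ le_rfl).trans (Set.ncard_le_ncard (grow_subset hx A.ncard) hA)
    omega
  refine Set.iUnion_subset fun n => ?_
  suffices grow S A x n ⊆ grow S A x t from
    this.trans ((grow_subset_ball t).trans (ball_mono ht))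
  induction n with
  | zero => exact grow_mono (Nat.zero_le t)
  | succ n ih =>
    rintro y (hy | ⟨hy, g, hg, hgy⟩)
    · exact ih hy
    · exact hst (.inr ⟨hy, g, hg, ih hgy⟩)

theorem mem_comp_of_smul {A : Set Ω} {x : Ω} {y : Ω} (hy : y ∈ A) {g : G}
    (hg : g ∈ S ∨ g⁻¹ ∈ S) (h : g • y ∈ comp S A x) : y ∈ comp S A x := by
  obtain ⟨n, hn⟩ := Set.mem_iUnion.1 h
  exact Set.mem_iUnion.2 ⟨n + 1, .inr ⟨hy, g, hg, hn⟩⟩

theorem ball_subset_comp {A : Set Ω} {x : Ω} {n : ℕ} (h : ball S x n ⊆ A) :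
    ball S x n ⊆ comp S A x := by
  induction n with
  | zero =>
    rintro y ⟨l, h1, -, rfl⟩
    rw [List.length_eq_zero_iff.1 (Nat.le_zero.1 h1)]
    exact Set.mem_iUnion.2 ⟨0, by simp [grow]⟩
  | succ n ih =>
    intro y hy
    have hsub := ih ((ball_mono n.le_succ).trans h)
    rcases ball_succ n hy with hy' | hy'
    · exact hsub hy'
    · simp only [Set.mem_iUnion, Set.mem_image] at hy'
      obtain ⟨b, hb, z, hz, rfl⟩ := hy'
      refine mem_comp_of_smul (h hy) (gen_inv (show b ∈ S ∨ b⁻¹ ∈ S from hb)) ?_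
      rw [inv_smul_smul]
      exact hsub hz

theorem frontier_comp {A : Set Ω} {x : Ω} (hx : x ∈ A) :
    frontierSet S (comp S A x) ⊆ frontierSet S A := by
  rintro y ⟨hy, g, hg, hgy⟩
  refine ⟨comp_subset hx hy, g, hg, fun h => hgy ?_⟩
  exact mem_comp_of_smul h (gen_inv hg) (by rwa [inv_smul_smul])

theorem comp_down {A : Set Ω} {x y : Ω} (hy : y ∈ comp S A x) :
    ∃ n, y ∈ grow S A x n :=
  Set.mem_iUnion.1 hy

end Near

section Glue

variable {G : Type*} [Group G] {Ω : Type v} [MulAction G Ω] {k : ℕ} (a : Fin k → G)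

/-- two nested sets with the same boundary pattern up to distance `L` -/
structure CutMatch (A A' : Set Ω) (L : ℕ) (φ ψ : Ω → Ω) : Prop where
  hφ : ∀ y ∈ near (Set.range a) A L,
    φ y ∈ near (Set.range a) A' L ∧ (φ y ∈ A' ↔ y ∈ A) ∧ ψ (φ y) = y
  hψ : ∀ y ∈ near (Set.range a) A' L,
    ψ y ∈ near (Set.range a) A L ∧ (ψ y ∈ A ↔ y ∈ A') ∧ φ (ψ y) = y
  cφ : ∀ g, (g ∈ Set.range a ∨ g⁻¹ ∈ Set.range a) → ∀ y ∈ near (Set.range a) A L,
    g • y ∈ near (Set.range a) A L → φ (g • y) = g • φ y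
  cψ : ∀ g, (g ∈ Set.range a ∨ g⁻¹ ∈ Set.range a) → ∀ y ∈ near (Set.range a) A' L,
    g • y ∈ near (Set.range a) A' L → ψ (g • y) = g • ψ y
  sub : A ⊆ A'
  inner : near (Set.range a) A L ⊆ A'
  outer : ∀ y ∈ near (Set.range a) A' L, y ∉ A

variable {a}
variable {A A' : Set Ω} {L : ℕ} {φ ψ : Ω → Ω}

open Classical in
/-- folding onto the strip between the two sets -/
noncomputable def cutFold (A A' : Set Ω) (φ ψ : Ω → Ω) (y : Ω) : Ω :=
  if y ∈ A then φ y else if y ∈ A' then y else ψ y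

open Classical in
/-- the copy of the strip in which a point lies -/
noncomputable def cutSheet (A A' : Set Ω) (y : Ω) : ℤ :=
  if y ∈ A then -1 else if y ∈ A' then 0 else 1

/-- the points within `r` steps of the strip, on the side seen from it -/
def CutOk (a : Fin k → G) (A A' : Set Ω) (r : ℕ) (y : Ω) : Prop :=
  (y ∈ A → y ∈ near (Set.range a) A r) ∧ (y ∉ A' → y ∈ near (Set.range a) A' r)

theorem cutFold_mid {y : Ω} (h1 : y ∉ A) (h2 : y ∈ A') : cutFold A A' φ ψ y = y := by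
  rw [cutFold, if_neg h1, if_pos h2]

theorem cutSheet_mid {y : Ω} (h1 : y ∉ A) (h2 : y ∈ A') : cutSheet A A' y = 0 := by
  rw [cutSheet, if_neg h1, if_pos h2]

theorem cutFold_mem (hm : CutMatch a A A' L φ ψ) {r : ℕ} (hr : r ≤ L) {y : Ω}
    (hy : CutOk a A A' r y) :
    cutFold A A' φ ψ y ∉ A ∧ cutFold A A' φ ψ y ∈ A' := by
  by_cases h1 : y ∈ A
  · obtain ⟨u1, u2, -⟩ := hm.hφ y (near_mono hr (hy.1 h1))
    rw [cutFold, if_pos h1]
    exact ⟨hm.outer _ u1, u2.2 h1⟩
  by_cases h2 : y ∈ A'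
  · rw [cutFold_mid h1 h2]
    exact ⟨h1, h2⟩
  · obtain ⟨u1, u2, -⟩ := hm.hψ y (near_mono hr (hy.2 h2))
    rw [cutFold, if_neg h1, if_neg h2]
    exact ⟨fun h => h2 (u2.1 h), hm.inner u1⟩

theorem cut_step (hm : CutMatch a A A' L φ ψ) {g : G}
    (hg : g ∈ Set.range a ∨ g⁻¹ ∈ Set.range a) {r : ℕ} (hr : r + 1 ≤ L) {y : Ω}
    (hy : CutOk a A A' r y) :
    CutOk a A A' (r + 1) (g • y) ∧
      cutFold A A' φ ψ (g • cutFold A A' φ ψ y) = cutFold A A' φ ψ (g • y) ∧
      cutSheet A A' y + cutSheet A A' (g • cutFold A A' φ ψ y) = cutSheet A A' (g • y) := by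
  by_cases h1 : y ∈ A
  · have hy1 := hy.1 h1
    have hgy : g • y ∈ near (Set.range a) A (r + 1) := near_smul hy1 hg
    have hgy' : g • y ∈ A' := hm.inner (near_mono hr hgy)
    obtain ⟨u1, u2, u3⟩ := hm.hφ (g • y) (near_mono hr hgy)
    refine ⟨⟨fun _ => hgy, fun h => absurd hgy' h⟩, ?_⟩
    rw [show cutFold A A' φ ψ y = φ y from if_pos h1,
      ← hm.cφ g hg y (near_mono (by omega) hy1) (near_mono hr hgy)]
    have hout := hm.outer _ u1
    by_cases h2 : g • y ∈ A
    · refine ⟨by rw [cutFold_mid hout (u2.2 h2), cutFold, if_pos h2], ?_⟩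
      rw [cutSheet_mid hout (u2.2 h2), add_zero, cutSheet, if_pos h1, cutSheet, if_pos h2]
    · have h3 : φ (g • y) ∉ A' := fun h => h2 (u2.1 h)
      refine ⟨by rw [cutFold_mid h2 hgy', cutFold, if_neg hout, if_neg h3, u3], ?_⟩
      rw [cutSheet_mid h2 hgy', cutSheet, if_pos h1, cutSheet, if_neg hout, if_neg h3]
      norm_num
  by_cases h2 : y ∈ A'
  · rw [cutFold_mid h1 h2, cutSheet_mid h1 h2, zero_add]
    refine ⟨⟨fun h => ?_, fun h => ?_⟩, rfl, rfl⟩
    · have hfr : g • y ∈ frontierSet (Set.range a) A :=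
        ⟨h, g⁻¹, gen_inv hg, by rwa [inv_smul_smul]⟩
      exact Set.mem_iUnion₂.2 ⟨_, hfr, self_mem_ball _ _⟩
    · have hfr : y ∈ frontierSet (Set.range a) A' := ⟨h2, g, hg, h⟩
      exact Set.mem_iUnion₂.2 ⟨_, hfr, ball_mono (by omega)
        (ball_smul_one (self_mem_ball (S := Set.range a) y 0) hg)⟩
  · have hy2 := hy.2 h2
    have hgy : g • y ∈ near (Set.range a) A' (r + 1) := near_smul hy2 hg
    have hgy' : g • y ∉ A := hm.outer _ (near_mono hr hgy)
    obtain ⟨u1, u2, u3⟩ := hm.hψ (g • y) (near_mono hr hgy)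
    refine ⟨⟨fun h => absurd h hgy', fun _ => hgy⟩, ?_⟩
    rw [show cutFold A A' φ ψ y = ψ y by rw [cutFold, if_neg h1, if_neg h2],
      ← hm.cψ g hg y (near_mono (by omega) hy2) (near_mono hr hgy)]
    have hin := hm.inner u1
    by_cases h3 : g • y ∈ A'
    · refine ⟨by rw [cutFold_mid hgy' h3, cutFold, if_pos (u2.2 h3), u3], ?_⟩
      rw [cutSheet_mid hgy' h3, cutSheet, if_neg h1, if_neg h2, cutSheet, if_pos (u2.2 h3)]
      norm_num
    · have h4 : ψ (g • y) ∉ A := fun h => h3 (u2.1 h)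
      refine ⟨by rw [cutFold_mid h4 hin, cutFold, if_neg hgy', if_neg h3], ?_⟩
      rw [cutSheet_mid h4 hin, add_zero, cutSheet, if_neg h1, if_neg h2, cutSheet, if_neg hgy',
        if_neg h3]

/-- two matched cuts with every strip point connected downwards give a winding action -/
theorem cut_winding (hm : CutMatch a A A' L φ ψ) (hfin : A'.Finite) (ℓ : ℕ) (hL : ℓ + 2 ≤ L)
    (R : Set (FreeGroup (Fin k)))
    (hR : ∀ r ∈ R, r.toWord.length ≤ ℓ ∧ FreeGroup.lift a r = 1)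
    (depth : Ω → ℕ)
    (hdown : ∀ y ∈ A', y ∉ A → ∃ g, (g ∈ Set.range a ∨ g⁻¹ ∈ Set.range a) ∧ g • y ∈ A' ∧
      depth (g • y) < depth y)
    (hpt : ∃ y ∈ A', y ∉ A) :
    ∃ (M : Type v) (_ : Finite M) (F : FreeGroup (Fin k) →* Equiv.Perm (M × ℤ)),
      (∀ r ∈ R, F r = 1) ∧
      (∀ g y i m, F g (y, i + m) = ((F g (y, i)).1, (F g (y, i)).2 + m)) ∧
      ∃ g y, (F g (y, 0)).1 = y ∧ (F g (y, 0)).2 ≠ 0 := by
  let M := {y : Ω // y ∉ A ∧ y ∈ A'}
  have hfinM : Finite M := (hfin.subset fun y hy => hy.2).to_subtype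
  have ok0 : ∀ y : M, CutOk a A A' 0 y.1 :=
    fun y => ⟨fun h => absurd h y.2.1, fun h => absurd y.2.2 h⟩
  have act : ∀ g, (g ∈ Set.range a ∨ g⁻¹ ∈ Set.range a) → ∀ y : M,
      cutFold A A' φ ψ (g • y.1) ∉ A ∧ cutFold A A' φ ψ (g • y.1) ∈ A' :=
    fun g hg y => cutFold_mem hm (r := 0 + 1) (by omega) (cut_step hm hg (by omega) (ok0 y)).1
  let mv : ∀ g, (g ∈ Set.range a ∨ g⁻¹ ∈ Set.range a) → M × ℤ → M × ℤ := fun g hg p =>
    (⟨_, act g hg p.1⟩, p.2 + cutSheet A A' (g • p.1.1))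
  have cancel : ∀ g g', ∀ hg : g ∈ Set.range a ∨ g⁻¹ ∈ Set.range a,
      ∀ hg' : g' ∈ Set.range a ∨ g'⁻¹ ∈ Set.range a, g' * g = 1 →
      ∀ p : M × ℤ, mv g' hg' (mv g hg p) = p := by
    rintro g g' hg hg' e ⟨y, i⟩
    obtain ⟨-, e1, e2⟩ := cut_step hm hg' (r := 0 + 1) (by omega)
      (cut_step hm hg (by omega) (ok0 y)).1
    rw [← mul_smul g', e, one_smul] at e1 e2
    rw [cutSheet_mid y.2.1 y.2.2] at e2
    refine Prod.ext (Subtype.ext ?_) ?_
    · change cutFold A A' φ ψ (g' • cutFold A A' φ ψ (g • y.1)) = y.1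
      rw [e1, cutFold_mid y.2.1 y.2.2]
    · change i + cutSheet A A' (g • y.1) + cutSheet A A' (g' • cutFold A A' φ ψ (g • y.1)) = i
      omega
  let σ : Fin k → Equiv.Perm (M × ℤ) := fun s =>
    { toFun := mv (a s) (.inl ⟨s, rfl⟩)
      invFun := mv (a s)⁻¹ (.inr ⟨s, (inv_inv _).symm⟩)
      left_inv := cancel (a s) (a s)⁻¹ (.inl ⟨s, rfl⟩) (.inr ⟨s, (inv_inv _).symm⟩)
        (inv_mul_cancel _)
      right_inv := cancel (a s)⁻¹ (a s) (.inr ⟨s, (inv_inv _).symm⟩) (.inl ⟨s, rfl⟩)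
        (mul_inv_cancel _) }
  let F := FreeGroup.lift σ
  have hgenF : ∀ g, ∀ hg : g ∈ Set.range a ∨ g⁻¹ ∈ Set.range a,
      ∃ u : FreeGroup (Fin k), ∀ p, F u p = mv g hg p := by
    intro g hg
    rcases id hg with ⟨s, rfl⟩ | ⟨s, hs⟩
    · exact ⟨FreeGroup.of s, fun p => by simp [F, σ]⟩
    · obtain rfl : g = (a s)⁻¹ := by rw [hs, inv_inv]
      exact ⟨(FreeGroup.of s)⁻¹, fun p => by simp [F, σ]⟩
  have shift : ∀ g y i m, F g (y, i + m) = ((F g (y, i)).1, (F g (y, i)).2 + m) := by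
    intro g
    induction g using FreeGroup.induction_on with
    | C1 => simp
    | of s =>
      intro y i m
      refine Prod.ext ?_ ?_ <;> simp [F, σ, mv]
      ring
    | inv_of s _ =>
      intro y i m
      refine Prod.ext ?_ ?_ <;> simp [F, σ, mv]
      ring
    | mul u v hu hv =>
      intro y i m
      rw [map_mul, Equiv.Perm.mul_apply, Equiv.Perm.mul_apply, hv]
      exact hu (F v (y, i)).1 (F v (y, i)).2 m
  have word : ∀ l : List (Fin k × Bool), l.length ≤ ℓ → ∀ (y : M) (i : ℤ),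
      (F (FreeGroup.mk l) (y, i)).1.1 =
        cutFold A A' φ ψ (FreeGroup.lift a (FreeGroup.mk l) • y.1) ∧
      (F (FreeGroup.mk l) (y, i)).2 =
        i + cutSheet A A' (FreeGroup.lift a (FreeGroup.mk l) • y.1) ∧
      CutOk a A A' l.length (FreeGroup.lift a (FreeGroup.mk l) • y.1) := by
    intro l
    induction l with
    | nil =>
      intro _ y i
      simp only [← FreeGroup.one_eq_mk, map_one, one_smul, Equiv.Perm.one_apply,
        cutFold_mid y.2.1 y.2.2, cutSheet_mid y.2.1 y.2.2, add_zero, true_and]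
      exact ok0 y
    | cons p l ih =>
      intro hlen y i
      simp only [List.length_cons] at hlen ⊢
      obtain ⟨e, e', e1⟩ := ih (by omega) y i
      have hsplit : FreeGroup.mk (p :: l) = FreeGroup.mk [p] * FreeGroup.mk l := by
        rw [FreeGroup.mul_mk]; rfl
      obtain ⟨s, b⟩ := p
      have hgen : FreeGroup.lift a (FreeGroup.mk [(s, b)]) ∈ Set.range a ∨
          (FreeGroup.lift a (FreeGroup.mk [(s, b)]))⁻¹ ∈ Set.range a := by
        cases b
        · exact .inr ⟨s, by simp⟩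
        · exact .inl ⟨s, by simp⟩
      have hF : ∀ q : M × ℤ, (F (FreeGroup.mk [(s, b)]) q).1.1 =
          cutFold A A' φ ψ (FreeGroup.lift a (FreeGroup.mk [(s, b)]) • q.1.1) ∧
          (F (FreeGroup.mk [(s, b)]) q).2 =
            q.2 + cutSheet A A' (FreeGroup.lift a (FreeGroup.mk [(s, b)]) • q.1.1) := by
        intro q
        cases b <;> simp [F, σ, mv]
      obtain ⟨c1, c2, c3⟩ := cut_step hm hgen (r := l.length) (by omega) e1
      rw [hsplit, map_mul, map_mul, Equiv.Perm.mul_apply, (hF _).1, (hF _).2, e, e', mul_smul,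
        c2, add_assoc, c3]
      exact ⟨rfl, rfl, c1⟩
  refine ⟨M, hfinM, F, fun r hr => ?_, shift, ?_⟩
  · refine Equiv.ext fun ⟨y, i⟩ => ?_
    obtain ⟨w1, w2, -⟩ := word _ (hR r hr).1 y i
    rw [FreeGroup.mk_toWord, (hR r hr).2, one_smul] at w1 w2
    rw [cutFold_mid y.2.1 y.2.2] at w1
    rw [cutSheet_mid y.2.1 y.2.2, add_zero] at w2
    exact Prod.ext (Subtype.ext w1) w2
  have down : ∀ t, ∀ y : M, depth y.1 = t → ∃ u y', F u (y, 0) = (y', -1) := by
    intro t
    induction t using Nat.strong_induction_on with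
    | _ t ih =>
      intro y e
      obtain ⟨g, hg, hg', hlt⟩ := hdown y.1 y.2.2 y.2.1
      obtain ⟨u, hu⟩ := hgenF g hg
      by_cases hA : g • y.1 ∈ A
      · refine ⟨u, (mv g hg (y, 0)).1, ?_⟩
        rw [hu]
        refine Prod.ext rfl ?_
        change 0 + cutSheet A A' (g • y.1) = -1
        rw [cutSheet, if_pos hA]
        rfl
      · obtain ⟨u', y', hy'⟩ := ih _ (e ▸ hlt) ⟨g • y.1, hA, hg'⟩ rfl
        refine ⟨u' * u, y', ?_⟩
        rw [map_mul, Equiv.Perm.mul_apply, hu]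
        change F u' (⟨cutFold A A' φ ψ (g • y.1), _⟩, 0 + cutSheet A A' (g • y.1)) = _
        simp only [cutFold_mid (φ := φ) (ψ := ψ) hA hg']
        rw [cutSheet_mid hA hg', add_zero]
        exact hy'
  obtain ⟨y, hy, hy'⟩ := hpt
  have many : ∀ n : ℕ, ∃ u z, F u (⟨y, hy', hy⟩, 0) = (z, -(n : ℤ)) := by
    intro n
    induction n with
    | zero => exact ⟨1, ⟨y, hy', hy⟩, by simp⟩
    | succ n ih =>
      obtain ⟨u, z, hz⟩ := ih
      obtain ⟨u', z', hz'⟩ := down _ z rfl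
      refine ⟨u' * u, z', ?_⟩
      rw [map_mul, Equiv.Perm.mul_apply, hz, ← zero_add (-(n : ℤ)), shift, hz']
      simp [add_comm]
  choose u z hz using many
  obtain ⟨i, j, hij, e⟩ := Finite.exists_ne_map_eq_of_infinite z
  have hi : (F (u i))⁻¹ (z i, -(i : ℤ)) = (⟨y, hy', hy⟩, 0) := by
    rw [← hz i, Equiv.Perm.inv_def, Equiv.symm_apply_apply]
  have hji : F (u j * (u i)⁻¹) (z i, -(i : ℤ)) = (z i, -(j : ℤ)) := by
    rw [map_mul, map_inv, Equiv.Perm.mul_apply, hi, hz, e]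
  refine ⟨u j * (u i)⁻¹, z i, ?_⟩
  have e0 := shift (u j * (u i)⁻¹) (z i) (-(i : ℤ)) i
  rw [neg_add_cancel, hji] at e0
  rw [e0]
  refine ⟨rfl, ?_⟩
  simp only
  omega

/-- among more sets than patterns two have the same boundary pattern -/
theorem exists_cut_match (k L B : ℕ) :
    ∃ P : ℕ, ∀ {G : Type*} [Group G] {Ω : Type v} [MulAction G Ω] (a : Fin k → G)
      (A : Fin (P + 1) → Set Ω), (∀ i, (near (Set.range a) (A i) L).Finite) →
      (∀ i, (near (Set.range a) (A i) L).ncard ≤ B) →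
      (∀ i j, i < j → A i ⊆ A j ∧ near (Set.range a) (A i) L ⊆ A j ∧
        ∀ y ∈ near (Set.range a) (A j) L, y ∉ A i) →
      ∃ i j, i < j ∧ ∃ φ ψ : Ω → Ω, CutMatch a (A i) (A j) L φ ψ := by
  classical
  refine ⟨Fintype.card (Set (Fin B × Bool) × Set (Fin k × Fin B × Fin B)),
    fun {G} _ {Ω} _ a A hfin hB hsep => ?_⟩
  let W : ∀ _ : Fin _, Set Ω := fun i => near (Set.range a) (A i) L
  have hι : ∀ n, Nonempty (W n ↪ Fin B) := fun n => by
    have := (hfin n).fintype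
    refine Function.Embedding.nonempty_of_card_le ?_
    rw [Fintype.card_fin, ← Nat.card_eq_fintype_card, Nat.card_coe_set_eq]
    exact hB n
  let ι : ∀ n, W n ↪ Fin B := fun n => (hι n).some
  let patt : Fin _ → Set (Fin B × Bool) × Set (Fin k × Fin B × Fin B) := fun n =>
    ({p | ∃ y : W n, ι n y = p.1 ∧ (p.2 = true ↔ y.1 ∈ A n)},
      {p | ∃ y y' : W n, ι n y = p.2.1 ∧ ι n y' = p.2.2 ∧ a p.1 • y.1 = y'.1})
  obtain ⟨i₀, j₀, hne, he⟩ := Fintype.exists_ne_map_eq_of_card_lt patt (by simp)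
  obtain ⟨i, j, hlt, e⟩ : ∃ i j, i < j ∧ patt i = patt j := by
    rcases lt_or_gt_of_ne hne with hl | hl
    exacts [⟨i₀, j₀, hl, he⟩, ⟨j₀, i₀, hl, he.symm⟩]
  have find : ∀ n m, patt n = patt m → ∀ y : W n,
      ∃ z : W m, ι m z = ι n y ∧ (z.1 ∈ A m ↔ y.1 ∈ A n) := by
    intro n m e y
    have hmem : (ι n y, decide (y.1 ∈ A n)) ∈ (patt n).1 := ⟨y, rfl, by simp⟩
    rw [e] at hmem
    obtain ⟨z, hz, hz'⟩ := hmem
    exact ⟨z, hz, by simp only [decide_eq_true_eq] at hz'; exact hz'.symm⟩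
  have compat : ∀ n m, patt n = patt m → ∀ g, (g ∈ Set.range a ∨ g⁻¹ ∈ Set.range a) →
      ∀ (y y' : W n) (z z' : W m),
      ι m z = ι n y → ι m z' = ι n y' → g • y.1 = y'.1 → g • z.1 = z'.1 := by
    intro n m e g hg y y' z z' hz hz' hgy
    have key : ∀ s (y y' : W n) (z z' : W m), ι m z = ι n y → ι m z' = ι n y' →
        a s • y.1 = y'.1 → a s • z.1 = z'.1 := by
      intro s y y' z z' hz hz' hgy
      have hmem : (s, ι n y, ι n y') ∈ (patt n).2 := ⟨y, y', rfl, rfl, hgy⟩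
      rw [e] at hmem
      obtain ⟨u, u', hu, hu', huu⟩ := hmem
      rw [(ι m).injective (hz.trans hu.symm), (ι m).injective (hz'.trans hu'.symm)]
      exact huu
    rcases hg with ⟨s, rfl⟩ | ⟨s, hs⟩
    · exact key s y y' z z' hz hz' hgy
    · obtain rfl : g = (a s)⁻¹ := by rw [hs, inv_inv]
      rw [inv_smul_eq_iff] at hgy ⊢
      exact (key s y' y z' z hz' hz hgy.symm).symm
  choose f hf hf' using find i j e
  choose f' hf1 hf2 using find j i e.symm
  let φ : Ω → Ω := fun y => if hy : y ∈ W i then (f ⟨y, hy⟩).1 else y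
  let ψ : Ω → Ω := fun y => if hy : y ∈ W j then (f' ⟨y, hy⟩).1 else y
  have hφd : ∀ y (hy : y ∈ W i), φ y = (f ⟨y, hy⟩).1 := fun y hy => dif_pos hy
  have hψd : ∀ y (hy : y ∈ W j), ψ y = (f' ⟨y, hy⟩).1 := fun y hy => dif_pos hy
  obtain ⟨s1, s2, s3⟩ := hsep i j hlt
  refine ⟨i, j, hlt, φ, ψ, ⟨fun y hy => ?_, fun y hy => ?_, fun g hg y hy hgy => ?_,
    fun g hg y hy hgy => ?_, s1, s2, s3⟩⟩
  · rw [hφd y hy, hψd _ (f ⟨y, hy⟩).2]
    exact ⟨(f ⟨y, hy⟩).2, hf' ⟨y, hy⟩,
      congrArg Subtype.val ((ι i).injective ((hf1 (f ⟨y, hy⟩)).trans (hf ⟨y, hy⟩)))⟩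
  · rw [hψd y hy, hφd _ (f' ⟨y, hy⟩).2]
    exact ⟨(f' ⟨y, hy⟩).2, hf2 ⟨y, hy⟩,
      congrArg Subtype.val ((ι j).injective ((hf (f' ⟨y, hy⟩)).trans (hf1 ⟨y, hy⟩)))⟩
  · rw [hφd y hy, hφd _ hgy]
    exact (compat i j e g hg ⟨y, hy⟩ ⟨_, hgy⟩ _ _ (hf _) (hf _) rfl).symm
  · rw [hψd y hy, hψd _ hgy]
    exact (compat j i e.symm g hg ⟨y, hy⟩ ⟨_, hgy⟩ _ _ (hf1 _) (hf1 _) rfl).symm

end Glue

/-- `x` lies in finite sets of size at most `φ n` containing the ball of radius `n` and having at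
most `B` frontier points -/
def HasCuts {G : Type*} [Group G] {Ω : Type*} [MulAction G Ω] (S : Set G) (B : ℕ) (φ : ℕ → ℕ)
    (x : Ω) : Prop :=
  ∀ n, ∃ A : Set Ω, A.Finite ∧ ball S x n ⊆ A ∧ A.ncard ≤ φ n ∧ (frontierSet S A).ncard ≤ B

/-- generators written as short words keep the property -/
theorem HasCuts.transfer {G Ω : Type*} [Group G] [MulAction G Ω] {S S' : Set G} {T B : ℕ}
    {φ : ℕ → ℕ} (hS : S.Finite)
    (hS' : ∀ b ∈ S', ∃ l : List G, l.length ≤ T ∧ (∀ e ∈ l, e ∈ S ∨ e⁻¹ ∈ S) ∧ l.prod = b)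
    {x : Ω} (h : HasCuts S B φ x) :
    HasCuts S' (B * (2 * S.ncard + 1) ^ T) (fun n => φ (T * n)) x := by
  intro n
  obtain ⟨A, hA, hball, hcard, hfr⟩ := h (T * n)
  refine ⟨A, hA, (word_transfer hS' x n).trans hball, hcard,
    (Set.ncard_le_ncard ?_ (near_finite hS hA T)).trans (ncard_near_le hS hA hfr T)⟩
  rintro y ⟨hy, g, hg, hgy⟩
  obtain ⟨l, hl, hl', hprod⟩ : ∃ l : List G, l.length ≤ T ∧ (∀ e ∈ l, e ∈ S ∨ e⁻¹ ∈ S) ∧
      l.prod = g := by
    rcases hg with hg | hg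
    · exact hS' g hg
    · obtain ⟨l, h1, h2, h3⟩ := hS' _ hg
      refine ⟨(l.map fun e => e⁻¹).reverse, by simpa using h1, fun e he => ?_, ?_⟩
      · obtain ⟨u, hu, rfl⟩ := List.mem_map.1 (List.mem_reverse.1 he)
        exact gen_inv (h2 u hu)
      · rw [← List.prod_inv_reverse, h3, inv_inv]
  subst hprod
  have key : ∀ l : List G, (∀ e ∈ l, e ∈ S ∨ e⁻¹ ∈ S) → l.prod • y ∉ A →
      ∃ z ∈ frontierSet S A, z ∈ ball S y l.length := by
    intro l
    induction l with
    | nil => exact fun _ h => absurd hy (by simpa using h)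
    | cons b l ih =>
      intro hl hout
      rw [List.prod_cons, mul_smul] at hout
      have hl'' : ∀ e ∈ l, e ∈ S ∨ e⁻¹ ∈ S := fun e he => hl e (List.mem_cons_of_mem _ he)
      by_cases hin : l.prod • y ∈ A
      · exact ⟨_, ⟨hin, b, hl b (by simp), hout⟩, l, by simp, hl'', rfl⟩
      · obtain ⟨z, hz, hz'⟩ := ih hl'' hin
        exact ⟨z, hz, ball_mono (by simp) hz'⟩
  obtain ⟨z, hz, hz'⟩ := key l hl' hgy
  exact Set.mem_iUnion₂.2 ⟨z, hz, ball_mono hl (ball_symm hz')⟩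

/-- a group with such cuts at a point has a bounded orbit there or virtually maps onto `ℤ` -/
theorem orbit_bounded_of_cuts {G : Type u} [Group G] [Group.IsFinitelyPresented G] {S : Set G}
    (hgen : closure S = ⊤) (hS : S.Finite) (B : ℕ) (φ : ℕ → ℕ) :
    ∃ N, ∀ (Ω : Type v) [MulAction G Ω] (x : Ω), HasCuts S B φ x →
      ((MulAction.orbit G x).Finite ∧ (MulAction.orbit G x).ncard ≤ N) ∨ VirtIndicable G := by
  classical
  obtain ⟨k, π, hπ, R, hR, hker⟩ := (inferInstance : Group.IsFinitelyPresented G).out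
  let a : Fin k → G := fun s => π (FreeGroup.of s)
  have ha : FreeGroup.lift a = π := FreeGroup.ext_hom _ _ fun s => FreeGroup.lift_apply_of
  have hA : closure (Set.range a) = ⊤ := by
    show closure (Set.range (π ∘ FreeGroup.of)) = ⊤
    rw [Set.range_comp, ← MonoidHom.map_closure, FreeGroup.closure_range_of,
      Subgroup.map_top_of_surjective _ hπ]
  choose wd hwd hwd' using fun s => exists_word hgen (a s)
  let T : ℕ := (Finset.univ.sup fun s => (wd s).length) + 1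
  have hT : ∀ b ∈ Set.range a, ∃ l : List G, l.length ≤ T ∧ (∀ e ∈ l, e ∈ S ∨ e⁻¹ ∈ S) ∧
      l.prod = b := by
    rintro _ ⟨s, rfl⟩
    exact ⟨wd s, (Finset.le_sup (f := fun s => (wd s).length) (Finset.mem_univ s)).trans
      (Nat.le_succ _), hwd s, hwd' s⟩
  let ℓ : ℕ := hR.toFinset.sup fun r => r.toWord.length
  have hRr : ∀ r ∈ R, r.toWord.length ≤ ℓ ∧ FreeGroup.lift a r = 1 := fun r hr =>
    ⟨Finset.le_sup (f := fun r => r.toWord.length) (hR.mem_toFinset.2 hr), by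
      rw [ha, ← MonoidHom.mem_ker, ← hker]
      exact subset_normalClosure hr⟩
  let L : ℕ := ℓ + 2
  let B' : ℕ := B * (2 * S.ncard + 1) ^ T
  let B'' : ℕ := B' * (2 * (Set.range a).ncard + 1) ^ L
  obtain ⟨P, hP⟩ := exists_cut_match.{v} k L B''
  -- nested radii
  let rad : ℕ → ℕ := fun i => Nat.rec (0 : ℕ) (fun _ r => r + φ (T * r) + 2 * L + 2) i
  have hrad : ∀ i, rad (i + 1) = rad i + φ (T * rad i) + 2 * L + 2 := fun i => rfl
  have hradm : ∀ i j, i ≤ j → rad i ≤ rad j := by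
    intro i j hij
    induction hij with
    | refl => exact le_rfl
    | step _ ih => exact ih.trans (by rw [hrad]; omega)
  refine ⟨(2 * (Set.range a).ncard + 1) ^ rad (P + 1), fun Ω _ x hx => ?_⟩
  refine or_iff_not_imp_left.2 fun hne => ?_
  choose A hAfin hAball hAcard hAfr using hx.transfer hS hT
  let C : ℕ → Set Ω := fun i => comp (Set.range a) (A (rad i)) x
  have hxA : ∀ n, x ∈ A n := fun n => hAball n (self_mem_ball x n)
  have hCball : ∀ i, ball (Set.range a) x (rad i) ⊆ C i := fun i => ball_subset_comp (hAball _)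
  have hCsub : ∀ i, C i ⊆ ball (Set.range a) x (φ (T * rad i)) := fun i =>
    (comp_subset_ball (hAfin _) (hxA _)).trans (ball_mono (hAcard _))
  have hCfin : ∀ i, (C i).Finite := fun i => (hAfin _).subset (comp_subset (hxA _))
  have hCfr : ∀ i, (frontierSet (Set.range a) (C i)).ncard ≤ B' := fun i =>
    (Set.ncard_le_ncard (frontier_comp (hxA _)) ((hAfin _).subset fun _ h => h.1)).trans
      (hAfr _)
  have hsep : ∀ i j, i < j → C i ⊆ C j ∧ near (Set.range a) (C i) L ⊆ C j ∧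
      ∀ y ∈ near (Set.range a) (C j) L, y ∉ C i := by
    intro i j hij
    have hr : φ (T * rad i) + 2 * L + 2 ≤ rad j := by
      have := hradm (i + 1) j hij
      rw [hrad] at this
      omega
    refine ⟨(hCsub i).trans ((ball_mono (by omega)).trans (hCball j)), fun y hy => ?_,
      fun y hy hy' => ?_⟩
    · obtain ⟨z, hz, hzy⟩ := Set.mem_iUnion₂.1 hy
      exact hCball j (ball_mono (by omega) (ball_trans (hCsub i hz.1) hzy))
    · obtain ⟨z, hz, hzy⟩ := Set.mem_iUnion₂.1 hy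
      obtain ⟨-, g, hg, hgz⟩ := hz
      exact hgz (hCball j (ball_mono (by omega)
        (ball_smul_one (ball_trans (hCsub i hy') (ball_symm hzy)) hg)))
  obtain ⟨i, j, hij, f, f', hm⟩ := hP a (fun i : Fin (P + 1) => C i)
    (fun i => near_finite (Set.finite_range a) (hCfin _) L)
    (fun i => ncard_near_le (Set.finite_range a) (hCfin _) (hCfr _) L)
    (fun i j hij => hsep i j hij)
  let depth : Ω → ℕ := fun y => sInf {n | y ∈ grow (Set.range a) (A (rad j)) x n}
  have hdown : ∀ y ∈ C j, y ∉ C i → ∃ g, (g ∈ Set.range a ∨ g⁻¹ ∈ Set.range a) ∧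
      g • y ∈ C j ∧ depth (g • y) < depth y := by
    intro y hy hy'
    have hmem : y ∈ grow (Set.range a) (A (rad j)) x (depth y) := Nat.sInf_mem (comp_down hy)
    obtain ⟨t, ht⟩ : ∃ t, depth y = t + 1 := by
      refine Nat.exists_eq_succ_of_ne_zero fun e => hy' ?_
      rw [e] at hmem
      rw [show y = x from hmem]
      exact hCball i (self_mem_ball x _)
    rw [ht] at hmem
    rcases hmem with hmem | ⟨-, g, hg, hgy⟩
    · have : depth y ≤ t := Nat.sInf_le hmem
      omega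
    · exact ⟨g, hg, Set.mem_iUnion.2 ⟨t, hgy⟩, (Nat.sInf_le hgy).trans_lt (by omega)⟩
  have hpt : ∃ y ∈ C j, y ∉ C i := by
    have hij' : (i : ℕ) < j := hij
    have hr : φ (T * rad i) + 1 ≤ rad j := by
      have := hradm (i + 1) j hij'
      rw [hrad] at this
      omega
    by_contra hcon
    push Not at hcon
    -- then a ball is stable, so it is the whole orbit
    have hst : ball (Set.range a) x (φ (T * rad i) + 1) ⊆
        ball (Set.range a) x (φ (T * rad i)) :=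
      fun y hy => hCsub i (hcon y (hCball j (ball_mono hr hy)))
    have horb : MulAction.orbit G x ⊆ ball (Set.range a) x (rad (P + 1)) := fun y hy => by
      obtain ⟨n, hn⟩ := exists_ball hA hy
      refine ball_mono ?_ (ball_stable hst n hn)
      have := hradm j (P + 1) (by omega)
      omega
    exact hne ⟨(ball_finite (Set.finite_range a) _).subset horb,
      (Set.ncard_le_ncard horb (ball_finite (Set.finite_range a) _)).trans
        (ncard_ball_le (Set.finite_range a) x _)⟩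
  obtain ⟨M, _, F, hF, hshift, g, y, hw1, hw2⟩ :=
    cut_winding hm (hCfin j) ℓ le_rfl R hRr depth hdown hpt
  have hkerF : π.ker ≤ F.ker := by
    rw [← hker]
    exact normalClosure_le_normal fun r hr => hF r hr
  have hlift : ∀ u, π.liftOfSurjective hπ ⟨F, hkerF⟩ (π u) = F u := fun u =>
    MonoidHom.liftOfRightInverse_comp_apply _ _ _ _ u
  refine virtIndicable_of_winding (π.liftOfSurjective hπ ⟨F, hkerF⟩) (fun g y i m => ?_)
    ⟨π g, y, by rw [hlift]; exact hw1, by rw [hlift]; exact hw2⟩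
  obtain ⟨u, rfl⟩ := hπ g
  rw [hlift]
  exact hshift u y i m

/-- linearly growing balls give cuts -/
theorem hasCuts_of_linear {G Ω : Type*} [Group G] [MulAction G Ω] {S : Set G} (hS : S.Finite)
    {C : ℕ} {x : Ω} (hlin : ∀ n, 0 < n → (ball S x n).ncard ≤ C * n) :
    HasCuts S (3 * C) (fun n => C * (2 * n + 3)) x := by
  intro n
  obtain ⟨m, hnm, hm, hfr⟩ : ∃ m, n ≤ m ∧ m < 2 * n + 3 ∧
      (ball S x (m + 1)).ncard ≤ (ball S x m).ncard + 3 * C := by
    by_contra hcon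
    push Not at hcon
    have key : ∀ t, n + t ≤ 2 * n + 3 → t * (3 * C + 1) ≤ (ball S x (n + t)).ncard := by
      intro t
      induction t with
      | zero => simp
      | succ t ih =>
        intro ht
        have := hcon (n + t) (Nat.le_add_right _ _) (by omega)
        have := ih (by omega)
        rw [← add_assoc, add_one_mul]
        omega
    have h1 := (key (n + 3) (by omega)).trans ((hlin _ (by omega)).trans_eq
      (show C * (n + (n + 3)) = C * (2 * n + 3) by ring))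
    nlinarith
  refine ⟨ball S x (m + 1), ball_finite hS _, ball_mono (by omega), ?_,
    (Set.ncard_le_ncard (t := ball S x (m + 1) \ ball S x m) ?_
      ((ball_finite hS (m + 1)).sdiff)).trans ?_⟩
  · exact (hlin _ (by omega)).trans (Nat.mul_le_mul_left C (by omega))
  · rintro y ⟨hy, g, hg, hgy⟩
    exact ⟨hy, fun h => hgy (ball_smul_one h hg)⟩
  · have hsub : ball S x m ⊆ ball S x (m + 1) := ball_mono (Nat.le_add_right m 1)
    have := Set.ncard_sdiff_add_ncard_of_subset hsub (ball_finite hS _)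
    omega

/-- finitely presented periodic subgroups of groups whose orbital graphs have cuts are finite -/
theorem periodic_subgroup_finite_of_cuts {Γ : Type u} [Group Γ] {Ω : Type v} [MulAction Γ Ω]
    [FaithfulSMul Γ Ω] {S : Set Γ} (hS : S.Finite) (hgen : closure S = ⊤) {B : ℕ} {φ : ℕ → ℕ}
    (hcuts : ∀ x : Ω, HasCuts S B φ x) (H : Subgroup Γ)
    [Group.IsFinitelyPresented H] (hH : IsMulTorsion H) : Finite H := by
  classical
  obtain ⟨k, π, -, hA⟩ := exists_gens (G := H)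
  let a : Fin k → H := fun s => π (FreeGroup.of s)
  choose wd hwd hwd' using fun s => exists_word hgen (a s : Γ)
  let T : ℕ := (Finset.univ.sup fun s => (wd s).length) + 1
  have hT : ∀ b ∈ Set.range (fun s => (a s : Γ)), ∃ l : List Γ, l.length ≤ T ∧
      (∀ e ∈ l, e ∈ S ∨ e⁻¹ ∈ S) ∧ l.prod = b := by
    rintro _ ⟨s, rfl⟩
    exact ⟨wd s, (Finset.le_sup (f := fun s => (wd s).length) (Finset.mem_univ s)).trans
      (Nat.le_succ _), hwd s, hwd' s⟩
  obtain ⟨N, hN⟩ := orbit_bounded_of_cuts.{u, v} hA (Set.finite_range a)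
    (B * (2 * S.ncard + 1) ^ T) (fun n => φ (T * n))
  refine finite_of_bounded_orbits (Ω := Ω) a hA N fun x => ?_
  refine (hN Ω x fun n => ?_).resolve_right (not_virtIndicable_of_isTorsion hH)
  obtain ⟨A, hAf, hball, hcard, hfr⟩ := (hcuts x).transfer hS hT n
  refine ⟨A, hAf, fun y hy => hball ?_, hcard,
    (Set.ncard_le_ncard ?_ (hAf.subset fun _ h => h.1)).trans hfr⟩
  · obtain ⟨l, h1, h2, rfl⟩ := hy
    refine ⟨l.map Subtype.val, by simpa using h1, fun e he => ?_, ?_⟩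
    · obtain ⟨b, hb, rfl⟩ := List.mem_map.1 he
      rcases h2 b hb with ⟨s, hs⟩ | ⟨s, hs⟩
      exacts [.inl ⟨s, congrArg Subtype.val hs⟩, .inr ⟨s, congrArg Subtype.val hs⟩]
    · rw [show (l.map Subtype.val).prod = (l.prod : Γ) by simp]
      rfl
  · rintro y ⟨hy, g, hg, hgy⟩
    refine ⟨hy, (g : Γ), ?_, hgy⟩
    rcases hg with ⟨s, hs⟩ | ⟨s, hs⟩
    exacts [.inl ⟨s, congrArg Subtype.val hs⟩, .inr ⟨s, congrArg Subtype.val hs⟩]

end Vale.Agent.P192
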