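import Mathlib
import Vale.Agent.P192.Cuts

/-!
P192: groups generated by bounded-type automorphisms of a rooted regular tree have orbital graphs
with uniformly bounded cuts, so their finitely presented periodic subgroups are finite.
-/

namespace Vale.Agent.P192

open Subgroup Vale.Agent.P196

universe u

variable {X : Type u}

/-- two sequences have the same first `m` letters -/
def SamePrefix (m : ℕ) (ω ω' : ℕ → X) : Prop := ∀ i < m, ω i = ω' i

/-- a permutation of the sequences that preserves common prefixes and, for some finite set of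
rays and some `d`, changes no letter at a position `≥ m + d` of a sequence leaving all the rays
before position `m`; every bounded automaton defines one -/
def BoundedType (g : Equiv.Perm (ℕ → X)) : Prop :=
  (∀ m ω ω', SamePrefix m (g ω) (g ω') ↔ SamePrefix m ω ω') ∧
    ∃ (R : Finset (ℕ → X)) (d : ℕ), ∀ m ω, (∀ r ∈ R, ¬SamePrefix m ω r) →
      ∀ i, m + d ≤ i → g ω i = ω i

theorem SamePrefix.mono {m n : ℕ} (h : m ≤ n) {ω ω' : ℕ → X} (hs : SamePrefix n ω ω') :
    SamePrefix m ω ω' := fun i hi => hs i (hi.trans_le h)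

theorem SamePrefix.trans {m : ℕ} {p q r : ℕ → X} (h : SamePrefix m p q)
    (h' : SamePrefix m q r) : SamePrefix m p r := fun i hi => (h i hi).trans (h' i hi)

theorem SamePrefix.symm {m : ℕ} {p q : ℕ → X} (h : SamePrefix m p q) : SamePrefix m q p :=
  fun i hi => (h i hi).symm

theorem eq_of_samePrefix {ω ω' : ℕ → X} (h : ∀ m, SamePrefix m ω ω') : ω = ω' :=
  funext fun i => h (i + 1) i (Nat.lt_succ_self i)

theorem exists_separation {P : Set (ℕ → X)} (hP : P.Finite) (lo : ℕ) :
    ∃ M, lo ≤ M ∧ ∀ p ∈ P, ∀ q ∈ P, SamePrefix M p q → p = q := by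
  classical
  have h : ∀ pq : (ℕ → X) × (ℕ → X), ∃ m, SamePrefix m pq.1 pq.2 → pq.1 = pq.2 := fun pq => by
    by_cases e : pq.1 = pq.2
    · exact ⟨0, fun _ => e⟩
    · obtain ⟨i, hi⟩ := Function.ne_iff.1 e
      exact ⟨i + 1, fun hs => absurd (hs i (Nat.lt_succ_self i)) hi⟩
  choose f hf using h
  refine ⟨max lo ((hP.toFinset ×ˢ hP.toFinset).sup f), le_max_left _ _,
    fun p hp q hq hs => hf (p, q) ?_⟩
  exact hs.mono ((Finset.le_sup (f := f) (b := (p, q)) (by simp [hp, hq])).trans
    (le_max_right _ _))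

variable [Finite X]

theorem hasCuts_bounded {Γ : Subgroup (Equiv.Perm (ℕ → X))} {S : Set Γ} (hS : S.Finite)
    (hbd : ∀ g ∈ S, BoundedType (g : Equiv.Perm (ℕ → X))) :
    ∃ (B : ℕ) (φ : ℕ → ℕ), ∀ x : ℕ → X, HasCuts S B φ x := by
  classical
  -- one set of rays and one depth for all generators and their inverses
  choose R d hRd using fun g hg => (hbd g hg).2
  have hpre : ∀ g, g ∈ S ∨ g⁻¹ ∈ S → ∀ m (ω ω' : ℕ → X),
      SamePrefix m (g • ω) (g • ω') ↔ SamePrefix m ω ω' := by
    rintro g (hg | hg) m ω ω'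
    · exact (hbd g hg).1 m ω ω'
    · have := (hbd _ hg).1 m (g • ω) (g • ω')
      change SamePrefix m (g⁻¹ • g • ω) (g⁻¹ • g • ω') ↔ _ at this
      rwa [inv_smul_smul, inv_smul_smul, Iff.comm] at this
  let R₀ : Finset (ℕ → X) := hS.toFinset.attach.biUnion fun g =>
    R g.1 (hS.mem_toFinset.1 g.2) ∪ (R g.1 (hS.mem_toFinset.1 g.2)).image (fun r => g.1 • r)
  let D : ℕ := hS.toFinset.attach.sup fun g => d g.1 (hS.mem_toFinset.1 g.2)
  have hstep : ∀ g, g ∈ S ∨ g⁻¹ ∈ S → ∀ m (ω : ℕ → X), (∀ r ∈ R₀, ¬SamePrefix m ω r) →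
      ∀ i, m + D ≤ i → (g • ω) i = ω i := by
    rintro g (hg | hg) m ω hω i hi
    · refine hRd g hg m ω (fun r hr => hω r ?_) i ?_
      · exact Finset.mem_biUnion.2 ⟨⟨g, hS.mem_toFinset.2 hg⟩, Finset.mem_attach _ _,
          Finset.mem_union_left _ hr⟩
      · have : d g hg ≤ D := Finset.le_sup (f := fun g : {g // g ∈ hS.toFinset} =>
          d g.1 (hS.mem_toFinset.1 g.2)) (Finset.mem_attach _ ⟨g, hS.mem_toFinset.2 hg⟩)
        omega
    · have hkey : ∀ r ∈ R g⁻¹ hg, ¬SamePrefix m (g • ω) r := fun r hr hs => hω (g⁻¹ • r)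
          (Finset.mem_biUnion.2 ⟨⟨g⁻¹, hS.mem_toFinset.2 hg⟩, Finset.mem_attach _ _,
            Finset.mem_union_right _ (Finset.mem_image_of_mem _ hr)⟩) (by
          have := (hpre g⁻¹ (.inl hg) m (g • ω) r).2 hs
          rwa [inv_smul_smul] at this)
      have hd : d g⁻¹ hg ≤ D := Finset.le_sup (f := fun g : {g // g ∈ hS.toFinset} =>
        d g.1 (hS.mem_toFinset.1 g.2)) (Finset.mem_attach _ ⟨g⁻¹, hS.mem_toFinset.2 hg⟩)
      have := hRd g⁻¹ hg m (g • ω) hkey i (by omega)
      change (g⁻¹ • g • ω) i = (g • ω) i at this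
      rw [inv_smul_smul] at this
      exact this.symm
  -- the finitely many cofinality classes met by the orbits of the rays
  let Gen : Finset Γ := hS.toFinset ∪ hS.inv.toFinset
  let Rep : Finset (ℕ → X) := R₀ ∪ Gen.biUnion fun g => R₀.image fun r => g • r
  have hGen : ∀ g, g ∈ S ∨ g⁻¹ ∈ S → g ∈ Gen := fun g hg => by simpa [Gen] using hg
  have hclass : ∀ n, ∀ r ∈ R₀, ∀ p ∈ ball S r n, ∃ c ∈ Rep, ∃ M, ∀ i, M ≤ i → p i = c i := by
    intro n r hr
    induction n with
    | zero =>
      rintro p ⟨l, h1, -, rfl⟩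
      rw [List.length_eq_zero_iff.1 (Nat.le_zero.1 h1)]
      exact ⟨r, Finset.mem_union_left _ hr, 0, fun i _ => by simp⟩
    | succ n ih =>
      intro p hp
      rcases ball_succ n hp with hp | hp
      · exact ih p hp
      · simp only [Set.mem_iUnion, Set.mem_image] at hp
        obtain ⟨g, hg, q, hq, rfl⟩ := hp
        by_cases hqR : q ∈ R₀
        · exact ⟨g • q, Finset.mem_union_right _ (Finset.mem_biUnion.2 ⟨g, hGen g hg,
            Finset.mem_image_of_mem _ hqR⟩), 0, fun i _ => rfl⟩
        · obtain ⟨c, hc, M, hM⟩ := ih q hq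
          obtain ⟨m, -, hm⟩ := exists_separation (P := insert q (R₀ : Set (ℕ → X)))
            (R₀.finite_toSet.insert q) 0
          refine ⟨c, hc, max M (m + D), fun i hi => ?_⟩
          rw [hstep g hg m q (fun r' hr' hs => hqR (by
            rw [hm q (Set.mem_insert _ _) r' (.inr hr') hs]; exact hr')) i (le_of_max_le_right hi)]
          exact hM i (le_of_max_le_left hi)
  let P : ℕ → Set (ℕ → X) := fun n => ⋃ r ∈ R₀, ball S r (2 * n)
  have hP : ∀ n, (P n).Finite := fun n =>
    R₀.finite_toSet.biUnion fun r _ => ball_finite hS _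
  choose sep hsep0 hsep using fun n => exists_separation (hP n) 0
  have hlev : ∀ n, ∃ M, sep n + D ≤ M ∧
      ∀ p ∈ P n, ∃ c ∈ Rep, ∀ i, M ≤ i → p i = c i := by
    intro n
    have h : ∀ p : ℕ → X, ∃ M, p ∈ P n → ∃ c ∈ Rep, ∀ i, M ≤ i → p i = c i := fun p => by
      by_cases hp : p ∈ P n
      · obtain ⟨r, hr, hp'⟩ := Set.mem_iUnion₂.1 hp
        obtain ⟨c, hc, M, hM⟩ := hclass _ r hr p hp'
        exact ⟨M, fun _ => ⟨c, hc, hM⟩⟩
      · exact ⟨0, fun h => absurd h hp⟩
    choose f hf using h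
    refine ⟨max (sep n + D) ((hP n).toFinset.sup f), le_max_left _ _, fun p hp => ?_⟩
    obtain ⟨c, hc, hc'⟩ := hf p hp
    exact ⟨c, hc, fun i hi => hc' i ((Finset.le_sup ((hP n).mem_toFinset.2 hp)).trans
      ((le_max_right _ _).trans hi))⟩
  choose M hMD hMc using hlev
  cases nonempty_fintype X
  let J : ℕ := Rep.card * (Fintype.card (Fin (D + 1) → X)) + Rep.card + 1
  refine ⟨R₀.card * Fintype.card (Fin D → X) * J, fun n => Fintype.card (Fin (M n) → X) * J,
    fun x n => ?_⟩
  have hcard : ∀ (m : ℕ) (T : Finset (ℕ → X)) (A : Set (ℕ → X)),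
      (∀ ω ∈ A, ∃ t ∈ T, ∀ i, m ≤ i → ω i = t i) →
      A.Finite ∧ A.ncard ≤ Fintype.card (Fin m → X) * T.card := by
    intro m T A hA
    have hsub : A ⊆ ((Finset.univ ×ˢ T).image fun p : (Fin m → X) × (ℕ → X) =>
        fun i => if h : i < m then p.1 ⟨i, h⟩ else p.2 i : Finset (ℕ → X)) := by
      intro ω hω
      obtain ⟨t, ht, ht'⟩ := hA ω hω
      refine Finset.mem_coe.2 (Finset.mem_image.2 ⟨(fun i => ω i, t), by simp [ht],
        funext fun i => ?_⟩)
      by_cases h : i < m
      · simp [h]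
      · simp only [dif_neg h]
        exact (ht' i (not_lt.1 h)).symm
    refine ⟨(Finset.finite_toSet _).subset hsub,
      (Set.ncard_le_ncard hsub (Finset.finite_toSet _)).trans ?_⟩
    rw [Set.ncard_coe_finset]
    exact Finset.card_image_le.trans (by rw [Finset.card_product, Finset.card_univ])
  -- the tails of the ball of radius `n` about `x`
  obtain ⟨T, hT, hball⟩ : ∃ T : Finset (ℕ → X), T.card ≤ J ∧
      ∀ z ∈ ball S x n, ∃ t ∈ T, ∀ i, M n ≤ i → z i = t i := by
    by_cases hcrit : ∃ z ∈ ball S x n, ∃ r ∈ R₀, SamePrefix (sep n) z r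
    · obtain ⟨z, hz, r, hr, hzr⟩ := hcrit
      obtain ⟨l, hl, hlg, rfl⟩ := hz
      have hw : ∀ l : List Γ, (∀ e ∈ l, e ∈ S ∨ e⁻¹ ∈ S) → ∀ m (ω ω' : ℕ → X),
          SamePrefix m (l.prod • ω) (l.prod • ω') ↔ SamePrefix m ω ω' := by
        intro l
        induction l with
        | nil => intro _ m ω ω'; simp
        | cons b l ih =>
          intro hl m ω ω'
          rw [List.prod_cons, mul_smul, mul_smul, hpre b (hl b (by simp)),
            ih fun e he => hl e (List.mem_cons_of_mem _ he)]
      let p : ℕ → X := (l.prod)⁻¹ • r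
      have hp : p ∈ ball S r n := ball_symm ⟨l, hl, hlg, smul_inv_smul _ _⟩
      have hxp : SamePrefix (sep n) x p := by
        rw [← hw l hlg, smul_inv_smul]
        exact hzr
      have hPmem : ∀ v : List Γ, v.length ≤ n → (∀ e ∈ v, e ∈ S ∨ e⁻¹ ∈ S) →
          v.prod • p ∈ P n := fun v hv hv' => by
        refine Set.mem_iUnion₂.2 ⟨r, hr, ball_mono ?_ (ball_trans hp ⟨v, hv, hv', rfl⟩)⟩
        omega
      by_cases hxp' : x = p
      · refine ⟨Rep, by simp only [J]; omega, ?_⟩
        rintro z ⟨v, hv, hv', rfl⟩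
        rw [hxp']
        exact hMc n _ (hPmem v hv hv')
      have hex : ∃ m, ¬SamePrefix m x p := by
        by_contra hcon
        push Not at hcon
        exact hxp' (eq_of_samePrefix hcon)
      obtain ⟨l₁, hl₁, hl₁'⟩ : ∃ m, ¬SamePrefix m x p ∧ ∀ m', m' < m → SamePrefix m' x p :=
        ⟨Nat.find hex, Nat.find_spec hex, fun m hm => not_not.1 (Nat.find_min hex hm)⟩
      have hsl : sep n < l₁ := by
        by_contra hcon
        exact hl₁ (hxp.mono (not_lt.1 hcon))
      -- beyond `l₁ + D` nothing changes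
      have hfix : ∀ v : List Γ, v.length ≤ n → (∀ e ∈ v, e ∈ S ∨ e⁻¹ ∈ S) →
          ∀ i, l₁ + D ≤ i → (v.prod • x) i = x i := by
        intro v
        induction v with
        | nil => intro _ _ i _; simp
        | cons b v ih =>
          intro hv hv' i hi
          simp only [List.length_cons] at hv
          have hv'' : ∀ e ∈ v, e ∈ S ∨ e⁻¹ ∈ S := fun e he => hv' e (List.mem_cons_of_mem _ he)
          rw [List.prod_cons, mul_smul, hstep b (hv' b (by simp)) l₁ _ (fun r' hr' hs => ?_) i hi,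
            ih (by omega) hv'' i hi]
          have hvp : SamePrefix (sep n) (v.prod • x) (v.prod • p) := (hw v hv'' _ _ _).2 hxp
          have : v.prod • p = r' := hsep n _ (hPmem v (by omega) hv'') r'
            (Set.mem_iUnion₂.2 ⟨r', hr', self_mem_ball r' _⟩)
            (hvp.symm.trans (hs.mono hsl.le))
          rw [← this, hw v hv''] at hs
          exact hl₁ hs
      let T : Finset (ℕ → X) := (Rep ×ˢ (Finset.univ : Finset (Fin (D + 1) → X))).image fun q i =>
        if i + 1 < l₁ then q.1 i else if h : i + 1 - l₁ < D + 1 then q.2 ⟨_, h⟩ else x i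
      refine ⟨T ∪ insert x Rep, ?_, ?_⟩
      · refine (Finset.card_union_le _ _).trans ?_
        have h1 : T.card ≤ Rep.card * Fintype.card (Fin (D + 1) → X) :=
          Finset.card_image_le.trans (by rw [Finset.card_product, Finset.card_univ])
        have h2 : (insert x Rep).card ≤ Rep.card + 1 := Finset.card_insert_le _ _
        simp only [J]
        omega
      rintro z ⟨v, hv, hv', rfl⟩
      obtain ⟨c, hc, hc'⟩ := hMc n _ (hPmem v hv hv')
      refine ⟨_, Finset.mem_union_left _ (Finset.mem_image.2 ⟨(c,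
        fun j => (v.prod • x) (l₁ - 1 + j)), by simp [hc], rfl⟩), fun i hi => ?_⟩
      by_cases h1 : i + 1 < l₁
      · simp only [if_pos h1]
        rw [← hc' i hi]
        exact ((hw v hv' _ _ _).2 (hl₁' (i + 1) h1)) i (Nat.lt_succ_self i)
      · simp only [if_neg h1]
        by_cases h2 : i + 1 - l₁ < D + 1
        · simp only [dif_pos h2]
          rw [show l₁ - 1 + (i + 1 - l₁) = i by omega]
        · simp only [dif_neg h2]
          exact hfix v hv hv' i (by omega)
    · push Not at hcrit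
      refine ⟨{x}, by simp [J], ?_⟩
      intro z hz
      refine ⟨x, by simp, fun i hi => ?_⟩
      obtain ⟨l, hl, hlg, rfl⟩ := hz
      have := hMD n
      induction l with
      | nil => simp
      | cons b l ih =>
        simp only [List.length_cons] at hl
        have hlg' : ∀ e ∈ l, e ∈ S ∨ e⁻¹ ∈ S := fun e he => hlg e (List.mem_cons_of_mem _ he)
        rw [List.prod_cons, mul_smul, hstep b (hlg b (by simp)) (sep n) _
          (fun r hr => hcrit _ ⟨l, by omega, hlg', rfl⟩ r hr) i (by omega)]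
        exact ih (by omega) hlg'
  let A : Set (ℕ → X) := {ω | ∃ t ∈ T, ∀ i, M n ≤ i → ω i = t i}
  obtain ⟨hAfin, hAcard⟩ := hcard (M n) T A fun ω hω => hω
  refine ⟨A, hAfin, hball, hAcard.trans (Nat.mul_le_mul_left _ hT), ?_⟩
  -- a generator can leave `A` only near a ray
  have hsub : frontierSet S A ⊆ ((R₀ ×ˢ ((Finset.univ : Finset (Fin D → X)) ×ˢ T)).image
      fun q i => if i < M n - D then q.1 i else
        if h : i - (M n - D) < D then q.2.1 ⟨_, h⟩ else q.2.2 i : Finset (ℕ → X)) := by
    rintro ω ⟨⟨t, ht, hωt⟩, g, hg, hgω⟩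
    have hr : ∃ r ∈ R₀, SamePrefix (M n - D) ω r := by
      by_contra hcon
      push Not at hcon
      exact hgω ⟨t, ht, fun i hi => by
        have := hMD n
        rw [hstep g hg (M n - D) ω hcon i (by omega)]
        exact hωt i hi⟩
    obtain ⟨r, hr, hωr⟩ := hr
    refine Finset.mem_coe.2 (Finset.mem_image.2
      ⟨(r, fun j => ω (M n - D + j), t), by simp [hr, ht], funext fun i => ?_⟩)
    by_cases h1 : i < M n - D
    · simp only [if_pos h1]
      exact (hωr i h1).symm
    · simp only [if_neg h1]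
      by_cases h2 : i - (M n - D) < D
      · simp only [dif_pos h2]
        congr 1
        omega
      · simp only [dif_neg h2]
        exact (hωt i (by omega)).symm
  refine (Set.ncard_le_ncard hsub (Finset.finite_toSet _)).trans ?_
  rw [Set.ncard_coe_finset, mul_assoc]
  refine Finset.card_image_le.trans ?_
  rw [Finset.card_product, Finset.card_product, Finset.card_univ]
  exact Nat.mul_le_mul_left _ (Nat.mul_le_mul_left _ hT)

/-- finitely presented periodic groups generated inside a bounded-type group are finite -/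
theorem periodic_finite_bounded (S : Set (Equiv.Perm (ℕ → X))) (hS : S.Finite)
    (hbd : ∀ g ∈ S, BoundedType g) (H : Subgroup (Equiv.Perm (ℕ → X))) (hH : H ≤ closure S)
    [Group.IsFinitelyPresented H] (hper : IsMulTorsion H) : Finite H := by
  let S' : Set (closure S) := (fun g : closure S => (g : Equiv.Perm (ℕ → X))) ⁻¹' S
  have hS' : S'.Finite := hS.preimage (Subtype.val_injective.injOn)
  obtain ⟨B, φ, hcuts⟩ := hasCuts_bounded hS' fun g hg => hbd _ hg
  have hgen : closure S' = ⊤ := Subgroup.closure_closure_coe_preimage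
  let e : H.subgroupOf (closure S) ≃* H := Subgroup.subgroupOfEquivOfLe hH
  have hfp : Group.IsFinitelyPresented (H.subgroupOf (closure S)) :=
    Group.IsFinitelyPresented.equiv e.symm
  have hper' : IsMulTorsion (H.subgroupOf (closure S)) := fun g =>
    MonoidHom.isOfFinOrder e.symm.toMonoidHom (hper (e g)) |> fun h => by simpa using h
  have := periodic_subgroup_finite_of_cuts hS' hgen hcuts (H.subgroupOf (closure S)) hper'
  exact Finite.of_equiv _ e.toEquiv

end Vale.Agent.P192
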